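import Vale.Agent.P141.H103.MidK
import Vale.Agent.P141.H769.EN3

/-!
# The caps of the gauged paths in the letters of `PlaneW` / `MidK`
-/

namespace Vale.Agent.P141.H103

open Finset Matrix Vale.Agent.P141.PL Vale.Agent.P141.PL.H103
open Vale.Agent.P075 (Ix val)
open Vale.Agent.P141.PL.H315 (A2)
open Vale.Agent.P141.H48 (A4 pth Qth BSl sst)
open Vale.Agent.P141.H958 (s4)
open Vale.Agent.P141.H736 (Path)

noncomputable section

open scoped Classical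

variable {κ : Type*} [Fintype κ]

theorem mem_iv_val (k : ℕ) (m : ℤ) (j : Ix k) : 2 ^ k * m + val k j ∈ iv k m := by
  have hj : val k j < 2 ^ k := by
    have h := H588.sum_iv k 0 (fun x => if x < 2 ^ k then (0 : ℝ) else 1)
    have h0 : ∑ x ∈ iv k 0, (if x < 2 ^ k then (0 : ℝ) else 1) = 0 := by
      refine Finset.sum_eq_zero fun x hx => ?_
      unfold iv at hx
      rw [mem_Ico] at hx
      rw [if_pos (by linarith [hx.2])]
    rw [h0] at h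
    have h1 := (Finset.sum_eq_zero_iff_of_nonneg (fun i _ => by split_ifs <;> norm_num)).1 h.symm j
      (Finset.mem_univ j)
    by_contra hc
    rw [if_neg (by
      push Not at hc ⊢
      have : ((2 ^ k : ℕ) : ℤ) ≤ (val k j : ℤ) := by exact_mod_cast hc
      push_cast at this
      linarith)] at h1
    norm_num at h1
  unfold iv
  rw [mem_Ico]
  have h2 : ((val k j : ℕ) : ℤ) < 2 ^ k := by exact_mod_cast hj
  have h3 : (0 : ℤ) ≤ (val k j : ℤ) := by positivity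
  constructor <;> linarith

/-- a weighted Gram matrix depends only on the values on its rectangle -/
theorem QW_congr {a k : ℕ} {b b' : ℤ → ℤ → κ → ℝ} (M : ℤ → Matrix κ κ ℝ) {n m : ℤ}
    (h : ∀ x ∈ iv a n, ∀ y ∈ iv k m, b x y = b' x y) : QW a k b M n m = QW a k b' M n m := by
  ext j j'
  unfold QW
  refine congrArg _ (Finset.sum_congr rfl fun x hx => ?_)
  rw [h x hx _ (mem_iv_val k m j), h x hx _ (mem_iv_val k m j')]

theorem QK_congr [DecidableEq κ] {a k : ℕ} {b b' : ℤ → ℤ → κ → ℝ}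
    (K : ℤ → ℕ → ℤ → Matrix κ κ ℝ) {n m : ℤ}
    (h : ∀ x ∈ iv a n, ∀ y ∈ iv k m, b x y = b' x y) : QK b K k a n m = QK b' K k a n m :=
  QW_congr _ h

theorem PA_congr {a k : ℕ} {A A' : ℤ → ℤ → ℝ} {n m : ℤ}
    (h : ∀ z ∈ iv a n, ∀ y ∈ iv k m, A z y = A' z y) : PA A k a n m = PA A' k a n m := by
  rw [PA_eq, PA_eq]
  exact QK_congr _ fun z hz y hy => by funext _; exact h z hz y hy

theorem QK_zero [DecidableEq κ] (K : ℤ → ℕ → ℤ → Matrix κ κ ℝ) (k a : ℕ) (n m : ℤ) :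
    QK (0 : ℤ → ℤ → κ → ℝ) K k a n m = 0 := by
  ext j j'
  simp [QK, QW]

theorem PA_zero (k a : ℕ) (n m : ℤ) : PA (0 : ℤ → ℤ → ℝ) k a n m = 0 := by
  rw [PA_eq]
  exact QK_zero (κ := Unit) _ k a n m

/-- the gauged slice with outer variable `x₃` and middle variable `x₂`, `F = F (x₀, x₂, x₃)` -/
def Ap (Λ : ℝ) (g : ℤ × ℤ → ℝ) (K : ℕ) (F : ℕ → Pt → ℝ) (x0 : ℤ) (k : ℕ) (z y : ℤ) : ℝ :=
  pth Λ g K F x0 k y z

theorem Ap_zero (Λ : ℝ) (g : ℤ × ℤ → ℝ) (K : ℕ) (F : ℕ → Pt → ℝ) (x0 : ℤ) :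
    Ap Λ g K F x0 0 = 0 := by
  funext z y
  unfold Ap pth
  rw [if_pos (Or.inl rfl)]
  rfl

theorem tr_PA (k : ℕ) (A : ℤ → ℤ → ℝ) (n m : ℤ) :
    (PA A k k n m * PA A k k n m).trace = s4 k k (fun y z => A z y) m n := by
  rw [← H958.s4_swap]
  rfl

/-- **(hA)** cap of the `A`-family on every cube -/
theorem capA {Λ M : ℝ} (hΛ : 1 ≤ Λ) (hM : 0 ≤ M) {n : ℕ} {F : ℕ → Pt → ℝ}
    (hMo : H48.Mo4 n M F) {K : ℕ} (hK : K ≤ n) (g : ℤ × ℤ → ℝ) {k : ℕ} (hk : k < K)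
    (i0 r s : ℤ) {X Y : ℤ} (hX : ix (K - k) s = ix K X) (hY : ix (K - k) r = ix K Y) :
    ∑ x0 ∈ iv k i0, (PA (Ap Λ g K F x0 (k + 1)) k k r s
        * PA (Ap Λ g K F x0 (k + 1)) k k r s).trace
      ≤ 8 * Λ ^ 2 * M * (A2 K g X Y * √(A4 K g X Y)) * 2 ^ k := by
  have h := H769.s4_block hΛ hM hMo hK g hk i0 s r hX hY
  simp only [tr_PA]
  refine le_trans (le_of_eq ?_) (h.trans (le_of_eq ?_))
  · rfl
  · ring

/-- time `k` and time `k + 1` agree off the affected squares -/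
theorem agreeA {Λ : ℝ} {n : ℕ} {e cP : ℝ} {F : ℕ → Pt → ℝ} {Q : ℕ → Pt → Prop} (hcP : 0 ≤ cP)
    (hB : BSl n e cP F Q) {K : ℕ} (hK : K ≤ n) (g : ℤ × ℤ → ℝ) (X Y x0 : ℤ) {k : ℕ} (hk : k < K)
    {r s : ℤ} (hr : r ∈ iv (K - k) (ix K Y)) (hs : s ∈ iv (K - k) (ix K X))
    (hQ : ¬ Qth Λ g K Q x0 k s r) :
    PA (Ap Λ g K F x0 (k + 1)) k k r s = PA (Ap Λ g K F x0 k) k k r s := by
  have h := (H769.pthSt Λ n e cP F Q hcP hB K hK g X Y x0).1 k hk s hs r hr hQ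
  exact PA_congr fun z hz y hy => h y hy z hz

/-- packing of the affected squares inside the root -/
theorem packA {Λ : ℝ} {n : ℕ} {e cP : ℝ} {F : ℕ → Pt → ℝ} {Q : ℕ → Pt → Prop}
    (hB : BSl n e cP F Q) (g : ℤ × ℤ → ℝ) {K : ℕ} (hK : K ≤ n) (R S x0 : ℤ) :
    ∑ k ∈ range K, ∑ s ∈ iv (K - k) S, ∑ r ∈ iv (K - k) R,
      (if Qth Λ g K Q x0 k s r then (4 : ℝ) ^ k else 0) ≤ (cP + 2) * 4 ^ K := by
  refine le_trans (le_of_eq ?_) (H769.root_pack (Λ := Λ) hB g hK S R x0)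
  exact Finset.sum_congr rfl fun k _ => Finset.sum_comm

/-- the affected predicate depends on `x₀` only through its cell -/
theorem Qth_cell (Λ : ℝ) (g : ℤ × ℤ → ℝ) (K : ℕ) (Q : ℕ → Pt → Prop) {k : ℕ} {x0 x0' : ℤ}
    (h : ix k x0 = ix k x0') (r s : ℤ) : Qth Λ g K Q x0 k r s ↔ Qth Λ g K Q x0' k r s := by
  unfold Qth
  rw [h]

/-- the averages of a bounded gauge of mass `s` -/
theorem gauge_le {K : ℕ} {g : ℤ × ℤ → ℝ} {X Y : ℤ} {s : ℝ} (hs : 0 ≤ s)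
    (h2 : A2 K g X Y ≤ s) (h4 : A4 K g X Y ≤ s) :
    A2 K g X Y * √(A4 K g X Y) ≤ s * √s := by
  have h0 : 0 ≤ A2 K g X Y := PL.H315.A2_nonneg _ _ _ _
  exact mul_le_mul h2 (Real.sqrt_le_sqrt h4) (Real.sqrt_nonneg _) hs

end

end Vale.Agent.P141.H103
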