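import Vale.Agent.P141.H103.PlaneW
import Vale.Agent.P141.H704.Ando
import Vale.Agent.P141.H483.Chain

/-!
# Weighted Gram matrices: the middle inequalities

`x` outer variable, `y` middle variable, labels `κ`.
-/

namespace Vale.Agent.P141.H103

open Finset Matrix Vale.Agent.P141.PL Vale.Agent.P141.PL.H103
open Vale.Agent.P075 (Ix val)

noncomputable section

variable {κ κ' : Type*} [Fintype κ] [Fintype κ']

/-- weighted Gram matrix in the middle variable: outer scale `a`, index `n`; middle scale `k`,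
index `m`; `M x` the weight of the row `x` -/
def QW (a k : ℕ) (b : ℤ → ℤ → κ → ℝ) (M : ℤ → Matrix κ κ ℝ) (n m : ℤ) :
    Matrix (Ix k) (Ix k) ℝ := fun j j' =>
  ((2 : ℝ) ^ a * 2 ^ k)⁻¹ * ∑ x ∈ iv a n,
    b x (2 ^ k * m + val k j) ⬝ᵥ M x *ᵥ b x (2 ^ k * m + val k j')

theorem QW_symm {a k : ℕ} {b : ℤ → ℤ → κ → ℝ} {M : ℤ → Matrix κ κ ℝ} (hM : ∀ x, (M x)ᵀ = M x)
    (n m : ℤ) : (QW a k b M n m)ᵀ = QW a k b M n m := by
  ext j j'
  rw [transpose_apply, QW, QW]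
  refine congrArg _ (Finset.sum_congr rfl fun x _ => ?_)
  rw [dotProduct_mulVec, ← mulVec_transpose, hM, dotProduct_comm]

/-- outer averages -/
theorem QW_out (N k : ℕ) (b : ℤ → ℤ → κ → ℝ) (M : ℤ → ℤ → Matrix κ κ ℝ) :
    OutM N k (fun a n m => QW a k b (M m) n m) := by
  intro a _ _ n m
  ext j j'
  simp only [QW, Matrix.smul_apply, Matrix.add_apply, smul_eq_mul]
  have h := H588.sum_iv_succ a n
  have e : ∑ x ∈ iv (a + 1) n, b x (2 ^ k * m + val k j) ⬝ᵥ M m x *ᵥ b x (2 ^ k * m + val k j')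
      = ∑ x ∈ iv a (2 * n), b x (2 ^ k * m + val k j) ⬝ᵥ M m x *ᵥ b x (2 ^ k * m + val k j')
      + ∑ x ∈ iv a (2 * n + 1), b x (2 ^ k * m + val k j) ⬝ᵥ M m x *ᵥ
        b x (2 ^ k * m + val k j') := by
    unfold iv
    rw [← Finset.sum_union]
    · refine Finset.sum_congr ?_ fun _ _ => rfl
      ext x
      simp only [mem_union, mem_Ico, pow_succ]
      have h2 : (0 : ℤ) < 2 ^ a := by positivity
      constructor
      · rintro ⟨h1, h2⟩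
        by_cases hx : x < 2 ^ a * (2 * n) + 2 ^ a
        · left; exact ⟨by linarith, hx⟩
        · right; exact ⟨by linarith, by linarith⟩
      · rintro (⟨h1, h2⟩ | ⟨h1, h2⟩) <;> exact ⟨by linarith, by linarith⟩
    · rw [Finset.disjoint_left]
      intro x hx hx'
      rw [mem_Ico] at hx hx'
      linarith [hx.2, hx'.1]
  rw [e, pow_succ]
  have : ((2 : ℝ) ^ a * 2 * 2 ^ k)⁻¹ = (1 / 2) * ((2 : ℝ) ^ a * 2 ^ k)⁻¹ := by
    rw [show (2 : ℝ) ^ a * 2 * 2 ^ k = 2 * ((2 : ℝ) ^ a * 2 ^ k) by ring, mul_inv]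
    norm_num
  rw [this]
  ring

/-- correlation of two rows over the middle cell -/
def XR (k : ℕ) (b : ℤ → ℤ → κ → ℝ) (b' : ℤ → ℤ → κ' → ℝ) (x x' : ℤ) (m : ℤ) : Matrix κ κ' ℝ :=
  ((2 : ℝ) ^ k)⁻¹ • ∑ y ∈ iv k m, vecMulVec (b x y) (b' x' y)

omit [Fintype κ] [Fintype κ'] in
theorem XR_step (k : ℕ) (b : ℤ → ℤ → κ → ℝ) (b' : ℤ → ℤ → κ' → ℝ) (x x' : ℤ) (m : ℤ) :
    XR (k + 1) b b' x x' m = (1 / 2 : ℝ) • (XR k b b' x x' (2 * m) + XR k b b' x x' (2 * m + 1)) := by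
  unfold XR
  have e : ∀ f : ℤ → Matrix κ κ' ℝ, ∑ y ∈ iv (k + 1) m, f y
      = ∑ y ∈ iv k (2 * m), f y + ∑ y ∈ iv k (2 * m + 1), f y := by
    intro f
    unfold iv
    rw [← Finset.sum_union]
    · refine Finset.sum_congr ?_ fun _ _ => rfl
      ext x
      simp only [mem_union, mem_Ico, pow_succ]
      have h2 : (0 : ℤ) < 2 ^ k := by positivity
      constructor
      · rintro ⟨h1, h2⟩
        by_cases hx : x < 2 ^ k * (2 * m) + 2 ^ k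
        · left; exact ⟨by linarith, hx⟩
        · right; exact ⟨by linarith, by linarith⟩
      · rintro (⟨h1, h2⟩ | ⟨h1, h2⟩) <;> exact ⟨by linarith, by linarith⟩
    · rw [Finset.disjoint_left]
      intro x hx hx'
      rw [mem_Ico] at hx hx'
      linarith [hx.2, hx'.1]
  rw [e, ← smul_add, smul_smul]
  congr 1
  rw [pow_succ, mul_inv]
  ring

/-- **trace formula** -/
theorem tr_QW {a a' k : ℕ} {b : ℤ → ℤ → κ → ℝ} {b' : ℤ → ℤ → κ' → ℝ} {M : ℤ → Matrix κ κ ℝ}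
    {M' : ℤ → Matrix κ' κ' ℝ} (n n' m : ℤ) :
    (QW a k b M n m * QW a' k b' M' n' m).trace
      = ((2 : ℝ) ^ a * 2 ^ a')⁻¹ * ∑ x ∈ iv a n, ∑ x' ∈ iv a' n',
        ((XR k b b' x x' m)ᵀ * (M x * XR k b b' x x' m * M' x')).trace := by
  have h1 : ∀ x x' : ℤ, ((XR k b b' x x' m)ᵀ * (M x * XR k b b' x x' m * M' x')).trace
      = ((2 : ℝ) ^ k)⁻¹ * ((2 : ℝ) ^ k)⁻¹ * ∑ y ∈ iv k m, ∑ y' ∈ iv k m,
        (b x y ⬝ᵥ M x *ᵥ b x y') * (b' x' y' ⬝ᵥ M' x' *ᵥ b' x' y) := by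
    intro x x'
    unfold XR
    rw [transpose_smul, Matrix.smul_mul, Matrix.mul_smul, Matrix.smul_mul, Matrix.mul_smul,
      smul_smul, trace_smul, smul_eq_mul]
    congr 1
    rw [transpose_sum, Matrix.sum_mul, trace_sum]
    refine Finset.sum_congr rfl fun y _ => ?_
    rw [Matrix.mul_sum, Matrix.sum_mul, Matrix.mul_sum, trace_sum]
    refine Finset.sum_congr rfl fun y' _ => ?_
    rw [transpose_vecMulVec, mul_vecMulVec, vecMulVec_mul, trace_vecMulVec, vecMulVec_mul,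
      vecMul_vecMulVec, dotProduct_smul, smul_eq_mul, dotProduct_comm (b' x' y),
      dotProduct_mulVec (b' x' y')]
  rw [Finset.sum_congr rfl fun x _ => Finset.sum_congr rfl fun x' _ => h1 x x']
  have h2 : (QW a k b M n m * QW a' k b' M' n' m).trace
      = ∑ y ∈ iv k m, ∑ y' ∈ iv k m, (((2 : ℝ) ^ a * 2 ^ k)⁻¹ * ∑ x ∈ iv a n,
        b x y ⬝ᵥ M x *ᵥ b x y') * (((2 : ℝ) ^ a' * 2 ^ k)⁻¹ * ∑ x' ∈ iv a' n',
        b' x' y' ⬝ᵥ M' x' *ᵥ b' x' y) := by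
    rw [H588.sum_iv]
    simp only [H588.sum_iv k m]
    simp only [Matrix.trace, Matrix.diag, Matrix.mul_apply, QW]
  rw [h2]
  have h3 : ∀ y y' : ℤ, (((2 : ℝ) ^ a * 2 ^ k)⁻¹ * ∑ x ∈ iv a n,
        b x y ⬝ᵥ M x *ᵥ b x y') * (((2 : ℝ) ^ a' * 2 ^ k)⁻¹ * ∑ x' ∈ iv a' n',
        b' x' y' ⬝ᵥ M' x' *ᵥ b' x' y)
      = ((2 : ℝ) ^ a * 2 ^ a')⁻¹ * (((2 : ℝ) ^ k)⁻¹ * ((2 : ℝ) ^ k)⁻¹ *
        ∑ x ∈ iv a n, ∑ x' ∈ iv a' n',
          (b x y ⬝ᵥ M x *ᵥ b x y') * (b' x' y' ⬝ᵥ M' x' *ᵥ b' x' y)) := by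
    intro y y'
    rw [← Finset.sum_mul_sum, mul_inv, mul_inv, mul_inv]
    ring
  rw [Finset.sum_congr rfl fun y _ => Finset.sum_congr rfl fun y' _ => h3 y y']
  simp only [Finset.mul_sum]
  rw [Finset.sum_congr rfl fun y _ => Finset.sum_comm, Finset.sum_comm]
  refine Finset.sum_congr rfl fun x _ => ?_
  rw [Finset.sum_congr rfl fun y _ => Finset.sum_comm, Finset.sum_comm]

/-! ### Middle inequalities -/

variable [DecidableEq κ] [DecidableEq κ']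

/-- **Ando, averaged**: the mixed (or own) middle inequality for two weighted families. -/
theorem QW_mid {l l' : ℝ} {N : ℕ} {G K : ℤ → ℕ → ℤ → Matrix κ κ ℝ}
    {G' K' : ℤ → ℕ → ℤ → Matrix κ' κ' ℝ} (h : ∀ x, H420.Tr l N (G x) (K x))
    (h' : ∀ x, H420.Tr l' N (G' x) (K' x)) {k : ℕ} (hk : k < N) (a a' : ℕ) (b : ℤ → ℤ → κ → ℝ)
    (b' : ℤ → ℤ → κ' → ℝ) (n n' m : ℤ) :
    (QW a (k + 1) b (fun x => (K x (k + 1) m)⁻¹) n m
        * QW a' (k + 1) b' (fun x => (K' x (k + 1) m)⁻¹) n' m).trace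
      ≤ (1 / 2) * ((QW a k b (fun x => (K x k (2 * m))⁻¹) n (2 * m)
          * QW a' k b' (fun x => (K' x k (2 * m))⁻¹) n' (2 * m)).trace
        + (QW a k b (fun x => (K x k (2 * m + 1))⁻¹) n (2 * m + 1)
          * QW a' k b' (fun x => (K' x k (2 * m + 1))⁻¹) n' (2 * m + 1)).trace) := by
  rw [tr_QW, tr_QW, tr_QW, ← mul_add, mul_left_comm]
  refine mul_le_mul_of_nonneg_left ?_ (by positivity)
  rw [← Finset.sum_add_distrib, Finset.mul_sum]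
  refine Finset.sum_le_sum fun x _ => ?_
  rw [← Finset.sum_add_distrib, Finset.mul_sum]
  refine Finset.sum_le_sum fun x' _ => ?_
  have h1 := h x
  have h2 := h' x'
  refine H704.ando (h1.pdK _ _) (h1.pdK _ _) (h1.pdK _ _) (h2.pdK _ _) (h2.pdK _ _)
    (h2.pdK _ _) ?_ ?_ (XR_step k b b' x x' m)
  · rw [h1.sq, h1.sq, h1.sq, h1.mean k hk]
    module
  · rw [h2.sq, h2.sq, h2.sq, h2.mean k hk]
    module

/-- the product of the two slots over the middle cell: `q = avg_y A (z, y) b (x, y)` -/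
def qK (A : ℤ → ℤ → ℝ) (b : ℤ → ℤ → κ → ℝ) (z x : ℤ) (k : ℕ) (m : ℤ) : κ → ℝ :=
  ((2 : ℝ) ^ k)⁻¹ • ∑ y ∈ iv k m, A z y • b x y

/-- the gain of the node `(m, n, n')` of scale `k`: outer cells `n` (of `A`), `n'` (of `b`) -/
def gK (A : ℤ → ℤ → ℝ) (b : ℤ → ℤ → κ → ℝ) (K : ℤ → ℕ → ℤ → Matrix κ κ ℝ) (k : ℕ)
    (n n' m : ℤ) : ℝ :=
  ((2 : ℝ) ^ k * 2 ^ k)⁻¹ * ∑ z ∈ iv k n, ∑ x ∈ iv k n',
    H483.ze (K x) (qK A b z x) k m ⬝ᵥ (K x k m)⁻¹ *ᵥ H483.ze (K x) (qK A b z x) k m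

theorem sum_iv_two (k : ℕ) (m : ℤ) {β : Type*} [AddCommMonoid β] (f : ℤ → β) :
    ∑ y ∈ iv (k + 1) m, f y = ∑ y ∈ iv k (2 * m), f y + ∑ y ∈ iv k (2 * m + 1), f y := by
  unfold iv
  rw [← Finset.sum_union]
  · refine Finset.sum_congr ?_ fun _ _ => rfl
    ext x
    simp only [mem_union, mem_Ico, pow_succ]
    have h2 : (0 : ℤ) < 2 ^ k := by positivity
    constructor
    · rintro ⟨h1, h2⟩
      by_cases hx : x < 2 ^ k * (2 * m) + 2 ^ k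
      · left; exact ⟨by linarith, hx⟩
      · right; exact ⟨by linarith, by linarith⟩
    · rintro (⟨h1, h2⟩ | ⟨h1, h2⟩) <;> exact ⟨by linarith, by linarith⟩
  · rw [Finset.disjoint_left]
    intro x hx hx'
    rw [mem_Ico] at hx hx'
    linarith [hx.2, hx'.1]

omit [Fintype κ] [DecidableEq κ] in
theorem qK_step (A : ℤ → ℤ → ℝ) (b : ℤ → ℤ → κ → ℝ) (z x : ℤ) (k : ℕ) (m : ℤ) :
    qK A b z x (k + 1) m = (1 / 2 : ℝ) • (qK A b z x k (2 * m) + qK A b z x k (2 * m + 1)) := by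
  unfold qK
  rw [sum_iv_two, ← smul_add, smul_smul]
  congr 1
  rw [pow_succ, mul_inv]
  ring

/-- **(N)** at one pair of rows -/
theorem gap_pt {l : ℝ} {N : ℕ} {G K : ℕ → ℤ → Matrix κ κ ℝ} (h : H420.Tr l N G K)
    {q : ℕ → ℤ → κ → ℝ} {k : ℕ} (hk : k < N) (m : ℤ)
    (hq : q (k + 1) m = (1 / 2 : ℝ) • (q k (2 * m) + q k (2 * m + 1))) :
    q (k + 1) m ⬝ᵥ (K (k + 1) m)⁻¹ *ᵥ q (k + 1) m
      + H483.ze K q (k + 1) m ⬝ᵥ (K (k + 1) m)⁻¹ *ᵥ H483.ze K q (k + 1) m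
      ≤ (1 / 2) * (q k (2 * m) ⬝ᵥ (K k (2 * m))⁻¹ *ᵥ q k (2 * m)
        + q k (2 * m + 1) ⬝ᵥ (K k (2 * m + 1))⁻¹ *ᵥ q k (2 * m + 1)) := by
  have h1 := (H483.nd' h hk m).gap (q (k + 1) m) (H483.hd q (k + 1) m)
  have e := H483.half_vec (q k (2 * m)) (q k (2 * m + 1))
  rw [← hq] at e
  have e1 : q (k + 1) m + H483.hd q (k + 1) m = q k (2 * m) := e.1
  have e2 : q (k + 1) m - H483.hd q (k + 1) m = q k (2 * m + 1) := e.2
  rw [e1, e2] at h1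
  exact h1

/-! ### The scalar family -/

/-- a scalar function as a one-label function -/
def un (A : ℤ → ℤ → ℝ) : ℤ → ℤ → Unit → ℝ := fun z y _ => A z y

theorem Xg_eq (a k : ℕ) (A : ℤ → ℤ → ℝ) (n m : ℤ) :
    H588.Xg a k A n m = QW a k (un A) (fun _ => (1 : Matrix Unit Unit ℝ)⁻¹) n m := by
  ext j j'
  rw [H588.Xg_apply, QW, H588.sum_iv]
  simp [un]

theorem tr_one (N : ℕ) : H420.Tr (1 : ℝ) N (fun _ _ => (0 : Matrix Unit Unit ℝ)) (fun _ _ => 1) where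
  l_pos := one_pos
  psG := fun _ _ => PosSemidef.zero
  pdK := fun _ _ => PosDef.one
  sq := fun _ _ => by simp
  mean := fun _ _ _ => by simp

omit [DecidableEq κ] in
/-- trace of the product with a scalar Gram matrix -/
theorem tr_Xg_QW (a a' k : ℕ) (A : ℤ → ℤ → ℝ) (b : ℤ → ℤ → κ → ℝ) (M : ℤ → Matrix κ κ ℝ)
    (n n' m : ℤ) :
    (H588.Xg a k A n m * QW a' k b M n' m).trace
      = ((2 : ℝ) ^ a * 2 ^ a')⁻¹ * ∑ z ∈ iv a n, ∑ x ∈ iv a' n',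
        qK A b z x k m ⬝ᵥ M x *ᵥ qK A b z x k m := by
  rw [Xg_eq, tr_QW]
  congr 1
  refine Finset.sum_congr rfl fun z _ => Finset.sum_congr rfl fun x _ => ?_
  have e : ∀ j, XR k (un A) b z x m () j = qK A b z x k m j := by
    intro j
    simp [XR, qK, un, Matrix.smul_apply, Matrix.sum_apply, vecMulVec_apply]
  rw [inv_one, Matrix.one_mul, dotProduct_mulVec]
  simp only [Matrix.trace, Matrix.diag, Matrix.mul_apply, Matrix.transpose_apply, dotProduct,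
    vecMul, Finset.univ_unique, Finset.sum_singleton]
  refine Finset.sum_congr rfl fun j _ => ?_
  have e' : ∀ j, XR k (un A) b z x m default j = qK A b z x k m j := e
  simp only [e']
  ring

/-! ### Families for `totalW` -/

/-- the family of `A` at middle scale `k` -/
def PA (A : ℤ → ℤ → ℝ) (k : ℕ) : ℕ → ℤ → ℤ → Matrix (Ix k) (Ix k) ℝ :=
  fun a n m => H588.Xg a k A n m

/-- the weighted family of `b` at middle scale `k` -/
def QK (b : ℤ → ℤ → κ → ℝ) (K : ℤ → ℕ → ℤ → Matrix κ κ ℝ) (k : ℕ) :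
    ℕ → ℤ → ℤ → Matrix (Ix k) (Ix k) ℝ :=
  fun a n m => QW a k b (fun x => (K x k m)⁻¹) n m

theorem QK_out (N k : ℕ) (b : ℤ → ℤ → κ → ℝ) (K : ℤ → ℕ → ℤ → Matrix κ κ ℝ) :
    OutM N k (QK b K k) := QW_out N k b fun m x => (K x k m)⁻¹

theorem PA_eq (A : ℤ → ℤ → ℝ) (k : ℕ) : PA A k = QK (un A) (fun _ _ _ => 1) k := by
  funext a n m
  exact Xg_eq a k A n m

theorem PA_out (N k : ℕ) (A : ℤ → ℤ → ℝ) : OutM N k (PA A k) := by
  rw [PA_eq]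
  exact QK_out N k (un A) (fun _ _ _ => (1 : Matrix Unit Unit ℝ))

omit [DecidableEq κ] in
theorem QW_psd {a k : ℕ} {b : ℤ → ℤ → κ → ℝ} {M : ℤ → Matrix κ κ ℝ}
    (hM : ∀ x, (M x).PosSemidef) (n m : ℤ) : (QW a k b M n m).PosSemidef := by
  have e : QW a k b M n m = ((2 : ℝ) ^ a * 2 ^ k)⁻¹ • ∑ x ∈ iv a n,
      (Matrix.of fun (j : Ix k) (i : κ) => b x (2 ^ k * m + val k j) i) * M x
        * (Matrix.of fun (j : Ix k) (i : κ) => b x (2 ^ k * m + val k j) i)ᴴ := by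
    ext j j'
    rw [QW, Matrix.smul_apply, Matrix.sum_apply, smul_eq_mul]
    congr 1
    refine Finset.sum_congr rfl fun x _ => ?_
    rw [dotProduct_mulVec]
    simp [Matrix.mul_apply, vecMul, dotProduct]
  rw [e]
  refine PosSemidef.smul (posSemidef_sum _ fun x _ => ?_) (by positivity)
  exact (hM x).mul_mul_conjTranspose_same _

theorem QK_psd {l : ℝ} {N : ℕ} {G K : ℤ → ℕ → ℤ → Matrix κ κ ℝ}
    (h : ∀ x, H420.Tr l N (G x) (K x)) (b : ℤ → ℤ → κ → ℝ) (k a : ℕ) (n m : ℤ) :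
    (QK b K k a n m).PosSemidef := QW_psd (fun x => ((h x).pdK k m).inv.posSemidef) n m

theorem PA_psd (A : ℤ → ℤ → ℝ) (k a : ℕ) (n m : ℤ) : (PA A k a n m).PosSemidef :=
  H588.Xg_psd ..

theorem QK_symm {l : ℝ} {N : ℕ} {G K : ℤ → ℕ → ℤ → Matrix κ κ ℝ}
    (h : ∀ x, H420.Tr l N (G x) (K x)) (b : ℤ → ℤ → κ → ℝ) (k a : ℕ) (n m : ℤ) :
    (QK b K k a n m)ᵀ = QK b K k a n m := H420.tr_symm (QK_psd h b k a n m).isHermitian

theorem PA_symm (A : ℤ → ℤ → ℝ) (k a : ℕ) (n m : ℤ) : (PA A k a n m)ᵀ = PA A k a n m :=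
  H420.tr_symm (PA_psd A k a n m).isHermitian

/-- **middle inequality with gain** for the pair `A`, `b` -/
theorem PQ_mid {l : ℝ} {N : ℕ} {G K : ℤ → ℕ → ℤ → Matrix κ κ ℝ}
    (h : ∀ x, H420.Tr l N (G x) (K x)) {k : ℕ} (hk : k < N) (A : ℤ → ℤ → ℝ)
    (b : ℤ → ℤ → κ → ℝ) (n n' m : ℤ) :
    (PA A (k + 1) (k + 1) n m * QK b K (k + 1) (k + 1) n' m).trace + gK A b K (k + 1) n n' m
      ≤ (1 / 2) * ((PA A k (k + 1) n (2 * m) * QK b K k (k + 1) n' (2 * m)).trace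
        + (PA A k (k + 1) n (2 * m + 1) * QK b K k (k + 1) n' (2 * m + 1)).trace) := by
  unfold PA QK gK
  rw [tr_Xg_QW, tr_Xg_QW, tr_Xg_QW, ← mul_add, ← mul_add, mul_left_comm]
  refine mul_le_mul_of_nonneg_left ?_ (by positivity)
  rw [← Finset.sum_add_distrib, ← Finset.sum_add_distrib, Finset.mul_sum]
  refine Finset.sum_le_sum fun z _ => ?_
  rw [← Finset.sum_add_distrib, ← Finset.sum_add_distrib, Finset.mul_sum]
  exact Finset.sum_le_sum fun x _ => gap_pt (h x) hk m (qK_step A b z x k m)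

/-- own middle inequality, one pair of cells, weighted family -/
theorem QK_own_pt {l : ℝ} {N : ℕ} {G K : ℤ → ℕ → ℤ → Matrix κ κ ℝ}
    (h : ∀ x, H420.Tr l N (G x) (K x)) {k : ℕ} (hk : k < N) (b : ℤ → ℤ → κ → ℝ) (a : ℕ)
    (n m : ℤ) :
    (QK b K (k + 1) a n m * QK b K (k + 1) a n m).trace
      ≤ (1 / 2) * ((QK b K k a n (2 * m) * QK b K k a n (2 * m)).trace
        + (QK b K k a n (2 * m + 1) * QK b K k a n (2 * m + 1)).trace) :=
  QW_mid h h hk a a b b n n m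

theorem PA_own_pt {N : ℕ} {k : ℕ} (hk : k < N) (A : ℤ → ℤ → ℝ) (a : ℕ) (n m : ℤ) :
    (PA A (k + 1) a n m * PA A (k + 1) a n m).trace
      ≤ (1 / 2) * ((PA A k a n (2 * m) * PA A k a n (2 * m)).trace
        + (PA A k a n (2 * m + 1) * PA A k a n (2 * m + 1)).trace) := by
  rw [PA_eq, PA_eq]
  exact QK_own_pt (fun _ => tr_one N) hk (un A) a n m

/-- summation of own middle inequalities, with a defect -/
theorem EW_mid {N k : ℕ} (hk : k < N) {R S : ℤ} {ι ι' : Type*} [Fintype ι] [Fintype ι']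
    {P : ℕ → ℤ → ℤ → Matrix ι ι ℝ} {P' : ℕ → ℤ → ℤ → Matrix ι' ι' ℝ} {a : ℕ} {d : ℤ → ℤ → ℝ}
    (h : ∀ n m, (P' a n m * P' a n m).trace ≤ (1 / 2) * ((P a n (2 * m) * P a n (2 * m)).trace
      + (P a n (2 * m + 1) * P a n (2 * m + 1)).trace) + d n m) :
    EW N R S (k + 1) P' a ≤ EW N R S k P a
      + (2 : ℝ) ^ a * 2 ^ (k + 1) * ∑ m ∈ iv (N - (k + 1)) S, ∑ n ∈ iv (N - a) R, d n m := by
  have e : N - k = (N - (k + 1)) + 1 := by omega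
  unfold EW
  rw [e, H588.sum_iv_succ, show (2 : ℝ) ^ a * 2 ^ (k + 1) = 2 ^ a * 2 ^ k * 2 by rw [pow_succ]; ring,
    mul_assoc ((2 : ℝ) ^ a * 2 ^ k) 2, mul_assoc ((2 : ℝ) ^ a * 2 ^ k) 2, ← mul_add]
  refine mul_le_mul_of_nonneg_left ?_ (by positivity)
  rw [Finset.mul_sum, Finset.mul_sum, ← Finset.sum_add_distrib]
  refine Finset.sum_le_sum fun m _ => ?_
  rw [← Finset.sum_add_distrib, Finset.mul_sum, Finset.mul_sum, ← Finset.sum_add_distrib]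
  refine Finset.sum_le_sum fun n _ => ?_
  have := h n m
  linarith

theorem EW_mid0 {N k : ℕ} (hk : k < N) {R S : ℤ} {ι ι' : Type*} [Fintype ι] [Fintype ι']
    {P : ℕ → ℤ → ℤ → Matrix ι ι ℝ} {P' : ℕ → ℤ → ℤ → Matrix ι' ι' ℝ} {a : ℕ}
    (h : ∀ n m, (P' a n m * P' a n m).trace ≤ (1 / 2) * ((P a n (2 * m) * P a n (2 * m)).trace
      + (P a n (2 * m + 1) * P a n (2 * m + 1)).trace)) :
    EW N R S (k + 1) P' a ≤ EW N R S k P a := by
  have := EW_mid hk (R := R) (S := S) (d := fun _ _ => 0) (P := P) (P' := P') (a := a)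
    (fun n m => by simpa using h n m)
  simpa using this

/-- **own middle**, `A` -/
theorem PA_own {N k : ℕ} (hk : k < N) (R S : ℤ) (A : ℤ → ℤ → ℝ) (a : ℕ) :
    EW N R S (k + 1) (PA A (k + 1)) a ≤ EW N R S k (PA A k) a :=
  EW_mid0 hk fun n m => PA_own_pt hk A a n m

/-- **own middle**, weighted family -/
theorem QK_own {l : ℝ} {N : ℕ} {G K : ℤ → ℕ → ℤ → Matrix κ κ ℝ}
    (h : ∀ x, H420.Tr l N (G x) (K x)) {k : ℕ} (hk : k < N) (R S : ℤ) (b : ℤ → ℤ → κ → ℝ)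
    (a : ℕ) : EW N R S (k + 1) (QK b K (k + 1)) a ≤ EW N R S k (QK b K k) a :=
  EW_mid0 hk fun n m => QK_own_pt h hk b a n m

theorem gK_nonneg {l : ℝ} {N : ℕ} {G K : ℤ → ℕ → ℤ → Matrix κ κ ℝ}
    (h : ∀ x, H420.Tr l N (G x) (K x)) (A : ℤ → ℤ → ℝ) (b : ℤ → ℤ → κ → ℝ) (k : ℕ)
    (n n' m : ℤ) : 0 ≤ gK A b K k n n' m :=
  mul_nonneg (by positivity) (Finset.sum_nonneg fun z _ => Finset.sum_nonneg fun x _ =>
    H420.quad_nonneg ((h x).pdK k m).inv.posSemidef _)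

/-- the plane sum of the gains without normalisation -/
theorem GW_gK (N : ℕ) (R S T : ℤ) (k : ℕ) (c : ℤ) (A : ℤ → ℤ → ℝ) (b : ℤ → ℤ → κ → ℝ)
    (K : ℤ → ℕ → ℤ → Matrix κ κ ℝ) :
    GW N R S T k c (gK A b K k) = ∑ m ∈ iv (N - k) S, ∑ n ∈ iv (N - k) R,
      if c - m - n ∈ iv (N - k) T then ∑ z ∈ iv k n, ∑ x ∈ iv k (c - m - n),
        H483.ze (K x) (qK A b z x) k m ⬝ᵥ (K x k m)⁻¹ *ᵥ H483.ze (K x) (qK A b z x) k m else 0 := by
  unfold GW gK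
  rw [Finset.mul_sum]
  refine Finset.sum_congr rfl fun m _ => ?_
  rw [Finset.mul_sum]
  refine Finset.sum_congr rfl fun n _ => ?_
  have h4 : (4 : ℝ) ^ k * ((2 : ℝ) ^ k * 2 ^ k)⁻¹ = 1 := by
    rw [← mul_pow]
    norm_num
  split_ifs
  · rw [← mul_assoc, h4, one_mul]
  · rw [mul_zero]

/-- **The weighted gap of a static pair**: sum over all scales `k₀ < k ≤ N` and all nodes of the
planes. -/
theorem gapK {l : ℝ} {k₀ N : ℕ} (hkN : k₀ ≤ N) {G K : ℤ → ℕ → ℤ → Matrix κ κ ℝ}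
    (h : ∀ x, H420.Tr l N (G x) (K x)) (R S T : ℤ) {c : ℕ → ℤ} (hc : H588.Pl c)
    (A : ℤ → ℤ → ℝ) (b : ℤ → ℤ → κ → ℝ) :
    ∑ k ∈ Ico k₀ N, GW N R S T (k + 1) (c (k + 1)) (gK A b K (k + 1))
      ≤ 74 * √(EW N R S k₀ (PA A k₀) k₀ * EW N T S k₀ (QK b K k₀) k₀) :=
  totalW_sqrt hkN hc (P := fun k => PA A k) (Q := fun k => QK b K k)
    (g := fun k => gK A b K (k + 1)) (fun k _ _ => PA_out N k A) (fun k _ _ => QK_out N k b K)
    (fun k a n m => PA_symm A k a n m) (fun k a n m => QK_symm h b k a n m)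
    (fun _ _ hk n n' m => PQ_mid h hk A b n n' m)
    (fun _ _ hk a _ _ => PA_own hk R S A a) (fun _ _ hk a _ _ => QK_own h hk T S b a)

end

end Vale.Agent.P141.H103
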