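import Vale.Agent.P141.PL.H103.Shift
import Vale.Agent.P141.PL.H588.Split

/-!
# The plane step for arbitrary averaged matrix families
-/

namespace Vale.Agent.P141.H103

open Finset Matrix Vale.Agent.P141.PL Vale.Agent.P141.PL.H103

noncomputable section

variable {ι : Type*} [Fintype ι]

/-! ### One middle index -/

/-- correlation of two families -/
def alW (N : ℕ) (R T : ℤ) (k : ℕ) (p q : ℤ → Matrix ι ι ℝ) (s : ℤ) : ℝ :=
  ∑ n ∈ iv (N - k) R, if s - n ∈ iv (N - k) T then (p n * q (s - n)).trace else 0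

/-- energy of the outer scale `a` -/
def eW (N : ℕ) (R : ℤ) (P : ℕ → ℤ → Matrix ι ι ℝ) (a : ℕ) : ℝ :=
  (2 : ℝ) ^ a * ∑ n ∈ iv (N - a) R, (P a n * P a n).trace

/-- the energy which pays for a shift -/
def SEW (N k : ℕ) (e : ℕ → ℝ) : ℝ :=
  ∑ r ∈ range (N - k), (3 / 4) ^ r * (e (k + r) - e (k + r + 1)) + (3 / 4) ^ (N - k) * e N

/-- outer averages -/
def Out (N k : ℕ) (P : ℕ → ℤ → Matrix ι ι ℝ) : Prop :=
  ∀ a, k ≤ a → a < N → ∀ n, P (a + 1) n = (1 / 2 : ℝ) • (P a (2 * n) + P a (2 * n + 1))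

/-- multiscale family -/
def fW (N k : ℕ) (R : ℤ) (P : ℕ → ℤ → Matrix ι ι ℝ) (r : ℕ) (n : ℤ) : Matrix ι ι ℝ :=
  if n ∈ iv (N - k) R then P (k + r) (n / 2 ^ r) else 0

omit [Fintype ι] in
theorem fW_symm {N k : ℕ} {R : ℤ} {P : ℕ → ℤ → Matrix ι ι ℝ}
    (hP : ∀ a n, (P a n)ᵀ = P a n) (r : ℕ) (n : ℤ) : (fW N k R P r n)ᵀ = fW N k R P r n := by
  unfold fW
  split_ifs
  · exact hP _ _
  · exact transpose_zero

omit [Fintype ι] in
theorem fW_fs (N k : ℕ) (R : ℤ) (P : ℕ → ℤ → Matrix ι ι ℝ) (r : ℕ) : FSM (fW N k R P r) :=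
  ⟨iv (N - k) R, fun n hn => by unfold fW; rw [if_neg hn]⟩

omit [Fintype ι] in
theorem fW_blk (N k : ℕ) (R : ℤ) (P : ℕ → ℤ → Matrix ι ι ℝ) {r : ℕ} (hr : r ≤ N - k) (n : ℤ) :
    fW N k R P r n = fW N k R P r (2 ^ r * (n / 2 ^ r)) := by
  have h1 : (2 ^ r * (n / 2 ^ r)) / 2 ^ r = n / 2 ^ r :=
    Int.mul_ediv_cancel_left _ (by positivity)
  have h2 : (2 ^ r * (n / 2 ^ r)) ∈ iv (N - k) R ↔ n ∈ iv (N - k) R := by
    rw [mem_iv, mem_iv, ix, ix]
    obtain ⟨l, hl⟩ := Nat.exists_eq_add_of_le hr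
    rw [hl, pow_add, ← Int.ediv_ediv_of_nonneg (by positivity),
      ← Int.ediv_ediv_of_nonneg (by positivity), h1]
  unfold fW
  rw [h1]
  simp only [h2]

theorem cv_eq_alW (N : ℕ) (R T : ℤ) (k : ℕ) (P Q : ℕ → ℤ → Matrix ι ι ℝ) (s : ℤ) :
    cv (fW N k R P 0) (fW N k T Q 0) s = alW N R T k (P k) (Q k) s := by
  unfold cv alW
  rw [tsum_eq_sum (s := iv (N - k) R)]
  · refine Finset.sum_congr rfl fun n hn => ?_
    unfold fW
    rw [if_pos hn]
    simp only [pow_zero, Int.ediv_one, add_zero]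
    split_ifs
    · rfl
    · rw [Matrix.mul_zero, trace_zero]
  · intro n hn
    unfold fW
    rw [if_neg hn, Matrix.zero_mul, trace_zero]

/-- the mean is orthogonal to the difference -/
theorem mean_dist (X Y : Matrix ι ι ℝ) :
    ((X - (1 / 2 : ℝ) • (X + Y)) * (X - (1 / 2 : ℝ) • (X + Y))).trace
      + ((Y - (1 / 2 : ℝ) • (X + Y)) * (Y - (1 / 2 : ℝ) • (X + Y))).trace
      = (X * X).trace + (Y * Y).trace
        - 2 * (((1 / 2 : ℝ) • (X + Y)) * ((1 / 2 : ℝ) • (X + Y))).trace := by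
  simp only [Matrix.sub_mul, Matrix.mul_sub, Matrix.smul_mul, Matrix.mul_smul, Matrix.add_mul,
    Matrix.mul_add, trace_sub, trace_add, trace_smul, smul_eq_mul]
  ring

/-- one level of the multiscale energy -/
theorem level_eq {N k : ℕ} {R : ℤ} {P : ℕ → ℤ → Matrix ι ι ℝ} (hO : Out N k P) {r : ℕ}
    (hr : k + r < N) :
    2 ^ k * ∑' n, ((fW N k R P r n - fW N k R P (r + 1) n)
        * (fW N k R P r n - fW N k R P (r + 1) n)).trace
      = eW N R P (k + r) - eW N R P (k + r + 1) := by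
  have h1 : ∑' n, ((fW N k R P r n - fW N k R P (r + 1) n)
        * (fW N k R P r n - fW N k R P (r + 1) n)).trace
      = ∑ n ∈ iv (N - k) R,
        ((P (k + r) (n / 2 ^ r) - P (k + r + 1) (n / 2 ^ r / 2))
        * (P (k + r) (n / 2 ^ r) - P (k + r + 1) (n / 2 ^ r / 2))).trace := by
    rw [tsum_eq_sum (s := iv (N - k) R)]
    · refine Finset.sum_congr rfl fun n hn => ?_
      unfold fW
      rw [if_pos hn, if_pos hn]
      have : n / 2 ^ (r + 1) = n / 2 ^ r / 2 := by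
        rw [pow_succ, ← Int.ediv_ediv_of_nonneg (by positivity)]
      rw [this]
      rfl
    · intro n hn
      unfold fW
      rw [if_neg hn, if_neg hn, sub_zero, Matrix.mul_zero, trace_zero]
  obtain ⟨l, hl⟩ : ∃ l, N - k = (l + 1) + r := ⟨N - k - r - 1, by omega⟩
  have hl1 : N - (k + r) = l + 1 := by omega
  have hl2 : N - (k + r + 1) = l := by omega
  unfold eW
  rw [h1, hl, hl1, hl2]
  rw [sum_iv_div (l + 1) r R (fun n =>
      ((P (k + r) n - P (k + r + 1) (n / 2)) * (P (k + r) n - P (k + r + 1) (n / 2))).trace)]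
  rw [sum_iv_pair, sum_iv_pair l R (fun n => (P (k + r) n * P (k + r) n).trace)]
  have h2 : ∀ n : ℤ, 2 * n / 2 = n := fun n => by omega
  have h3 : ∀ n : ℤ, (2 * n + 1) / 2 = n := fun n => by omega
  simp only [h2, h3]
  have key : ∑ n ∈ iv l R,
      (((P (k + r) (2 * n) - P (k + r + 1) n) * (P (k + r) (2 * n) - P (k + r + 1) n)).trace
      + ((P (k + r) (2 * n + 1) - P (k + r + 1) n)
        * (P (k + r) (2 * n + 1) - P (k + r + 1) n)).trace)
      = ∑ n ∈ iv l R, ((P (k + r) (2 * n) * P (k + r) (2 * n)).trace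
        + (P (k + r) (2 * n + 1) * P (k + r) (2 * n + 1)).trace
        - 2 * (P (k + r + 1) n * P (k + r + 1) n).trace) := by
    refine Finset.sum_congr rfl fun n _ => ?_
    rw [hO (k + r) (by omega) hr n]
    exact mean_dist _ _
  rw [key, Finset.sum_sub_distrib, ← Finset.mul_sum, pow_succ, pow_add]
  ring

/-- the last level -/
theorem last_eq {N k : ℕ} (hk : k ≤ N) {R : ℤ} {P : ℕ → ℤ → Matrix ι ι ℝ} :
    2 ^ k * ∑' n, (fW N k R P (N - k) n * fW N k R P (N - k) n).trace = eW N R P N := by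
  have h0 : k + (N - k) = N := by omega
  have h1 : ∑' n, (fW N k R P (N - k) n * fW N k R P (N - k) n).trace
      = ∑ n ∈ iv (0 + (N - k)) R, (fun n => (P N n * P N n).trace) (n / 2 ^ (N - k)) := by
    rw [zero_add, tsum_eq_sum (s := iv (N - k) R)]
    · refine Finset.sum_congr rfl fun n hn => ?_
      unfold fW
      rw [if_pos hn, h0]
    · intro n hn
      unfold fW
      rw [if_neg hn, Matrix.mul_zero, trace_zero]
  rw [h1, sum_iv_div 0 (N - k) R (fun n => (P N n * P N n).trace), ← mul_assoc, ← pow_add, h0]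
  unfold eW
  rw [Nat.sub_self]

theorem MM_eqW {N k : ℕ} (hk : k ≤ N) {R : ℤ} {P : ℕ → ℤ → Matrix ι ι ℝ} (hO : Out N k P) :
    2 ^ k * MM (N - k) (fW N k R P) = SEW N k (eW N R P) := by
  unfold MM SEW
  rw [mul_add, Finset.mul_sum, mul_left_comm, last_eq hk]
  congr 1
  refine Finset.sum_congr rfl fun r hr => ?_
  rw [mul_left_comm, level_eq hO (by have := Finset.mem_range.1 hr; omega)]

/-- **Shift by one plane**, one middle index. -/
theorem shiftW1 {N k : ℕ} (hk : k ≤ N) {R T : ℤ} {P Q : ℕ → ℤ → Matrix ι ι ℝ}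
    (hP : Out N k P) (hQ : Out N k Q) (sP : ∀ a n, (P a n)ᵀ = P a n)
    (sQ : ∀ a n, (Q a n)ᵀ = Q a n) (s : ℤ) :
    2 ^ k * |alW N R T k (P k) (Q k) (s + 1) - alW N R T k (P k) (Q k) s|
      ≤ 4 * (SEW N k (eW N R P) + SEW N k (eW N T Q)) := by
  have h := first_diff_mat (N - k) (f := fW N k R P) (g := fW N k T Q)
    (fun r hr n => fW_blk N k R P hr n) (fun r hr n => fW_blk N k T Q hr n)
    (fun r _ n => fW_symm sP r n) (fun r _ n => fW_symm sQ r n)
    (fun r _ => fW_fs ..) (fun r _ => fW_fs ..) s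
  rw [cv_eq_alW, cv_eq_alW] at h
  have h2 := mul_le_mul_of_nonneg_left h (show (0 : ℝ) ≤ 2 ^ k by positivity)
  refine h2.trans (le_of_eq ?_)
  rw [← MM_eqW hk hP, ← MM_eqW hk hQ]
  ring

/-- **Shift**, one middle index: `|t' - t| ≤ D`. -/
theorem shiftW {N k : ℕ} (hk : k ≤ N) {R T : ℤ} {P Q : ℕ → ℤ → Matrix ι ι ℝ}
    (hP : Out N k P) (hQ : Out N k Q) (sP : ∀ a n, (P a n)ᵀ = P a n)
    (sQ : ∀ a n, (Q a n)ᵀ = Q a n) {t t' : ℤ} {D : ℕ} (hD : |t' - t| ≤ D) :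
    2 ^ k * |alW N R T k (P k) (Q k) t' - alW N R T k (P k) (Q k) t|
      ≤ 4 * D * (SEW N k (eW N R P) + SEW N k (eW N T Q)) := by
  set E := SEW N k (eW N R P) + SEW N k (eW N T Q) with hE
  have key : ∀ (d : ℕ) (u : ℤ), 2 ^ k * |alW N R T k (P k) (Q k) (u + d)
      - alW N R T k (P k) (Q k) u| ≤ 4 * d * E := by
    intro d
    induction d with
    | zero => intro u; simp
    | succ d ih =>
      intro u
      have h1 := shiftW1 hk (R := R) (T := T) hP hQ sP sQ (u + d)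
      rw [← hE] at h1
      have h2 := ih u
      have h3 := abs_sub_le (alW N R T k (P k) (Q k) (u + ((d + 1 : ℕ) : ℤ)))
        (alW N R T k (P k) (Q k) (u + d)) (alW N R T k (P k) (Q k) u)
      have e : u + ((d + 1 : ℕ) : ℤ) = u + d + 1 := by push_cast; ring
      rw [e] at h3 ⊢
      have h4 := mul_le_mul_of_nonneg_left h3 (show (0 : ℝ) ≤ 2 ^ k by positivity)
      push_cast
      linarith
  have hE0 : 0 ≤ E := by
    have h := key 1 0
    have h2 : 0 ≤ (2 : ℝ) ^ k * |alW N R T k (P k) (Q k) (0 + ((1 : ℕ) : ℤ))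
      - alW N R T k (P k) (Q k) 0| := by positivity
    push_cast at h
    push_cast at h2
    linarith
  have hD' := abs_le.1 hD
  rcases le_total t t' with h | h
  · obtain ⟨d, hd⟩ : ∃ d : ℕ, t' = t + d := ⟨(t' - t).toNat, by omega⟩
    have h1 := key d t
    rw [← hd] at h1
    have hdD : (d : ℝ) ≤ D := by
      have : d ≤ D := by omega
      exact_mod_cast this
    have := mul_le_mul_of_nonneg_right hdD hE0
    linarith
  · obtain ⟨d, hd⟩ : ∃ d : ℕ, t = t' + d := ⟨(t - t').toNat, by omega⟩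
    have h1 := key d t'
    rw [← hd, abs_sub_comm] at h1
    have hdD : (d : ℝ) ≤ D := by
      have : d ≤ D := by omega
      exact_mod_cast this
    have := mul_le_mul_of_nonneg_right hdD hE0
    linarith

/-! ### The split -/

/-- outer split with the opposite pairing, one pair of outer cells -/
theorem opp_pt {P₀ P₁ Q₀ Q₁ : Matrix ι ι ℝ} (hP₀ : P₀ᵀ = P₀) (hP₁ : P₁ᵀ = P₁) (hQ₀ : Q₀ᵀ = Q₀)
    (hQ₁ : Q₁ᵀ = Q₁) :
    (((1 / 2 : ℝ) • (P₀ + P₁)) * ((1 / 2 : ℝ) • (Q₀ + Q₁))).trace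
      ≤ (1 / 2) * ((P₀ * Q₁).trace + (P₁ * Q₀).trace)
        + (1 / 4) * ((P₀ * P₀).trace + (P₁ * P₁).trace
          - 2 * (((1 / 2 : ℝ) • (P₀ + P₁)) * ((1 / 2 : ℝ) • (P₀ + P₁))).trace)
        + (1 / 4) * ((Q₀ * Q₀).trace + (Q₁ * Q₁).trace
          - 2 * (((1 / 2 : ℝ) • (Q₀ + Q₁)) * ((1 / 2 : ℝ) • (Q₀ + Q₁))).trace) := by
  have h := P075.trace_sq_nonneg (B := (P₀ - P₁) - (Q₀ - Q₁))
    (by simp only [transpose_sub, hP₀, hP₁, hQ₀, hQ₁])
  have c1 := trace_mul_comm P₁ P₀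
  have c2 := trace_mul_comm Q₁ Q₀
  have c3 := trace_mul_comm Q₀ P₀
  have c4 := trace_mul_comm Q₀ P₁
  have c5 := trace_mul_comm Q₁ P₀
  have c6 := trace_mul_comm Q₁ P₁
  simp only [Matrix.sub_mul, Matrix.mul_sub, Matrix.smul_mul, Matrix.mul_smul, Matrix.add_mul,
    Matrix.mul_add, trace_sub, trace_add, trace_smul, smul_eq_mul] at h ⊢
  rw [c1, c2, c3, c4, c5, c6] at h
  rw [c1, c2]
  linarith

theorem alW_split {N k : ℕ} (h : k < N) (R T : ℤ) (p q : ℤ → Matrix ι ι ℝ) (s : ℤ) :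
    ∑ n ∈ iv (N - (k + 1)) R, (if s - n ∈ iv (N - (k + 1)) T then
      (p (2 * n) * q (2 * (s - n) + 1)).trace + (p (2 * n + 1) * q (2 * (s - n))).trace else 0)
      = alW N R T k p q (2 * s + 1) := by
  have e : N - k = (N - (k + 1)) + 1 := by omega
  unfold alW
  rw [e, H588.sum_iv_succ]
  refine sum_congr rfl fun n _ => ?_
  have e1 : 2 * s + 1 - 2 * n = 2 * (s - n) + 1 := by ring
  have e2 : 2 * s + 1 - (2 * n + 1) = 2 * (s - n) := by ring
  rw [e1, e2]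
  simp only [H588.mem_iv_double, H588.mem_iv_double']
  split_ifs
  · rfl
  · simp

/-- outer split on a plane, one middle index -/
theorem outer_split {N k : ℕ} (h : k < N) {R T : ℤ} {P Q : ℕ → ℤ → Matrix ι ι ℝ}
    (hP : Out N k P) (hQ : Out N k Q) (sP : ∀ a n, (P a n)ᵀ = P a n)
    (sQ : ∀ a n, (Q a n)ᵀ = Q a n) (s : ℤ) :
    2 ^ (k + 1) * ∑ n ∈ iv (N - (k + 1)) R, (if s - n ∈ iv (N - (k + 1)) T then
      (P (k + 1) n * Q (k + 1) (s - n)).trace else 0)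
      ≤ 2 ^ k * alW N R T k (P k) (Q k) (2 * s + 1)
        + (1 / 2) * (eW N R P k - eW N R P (k + 1)) + (1 / 2) * (eW N T Q k - eW N T Q (k + 1)) := by
  set dP : ℤ → ℝ := fun n => (P k (2 * n) * P k (2 * n)).trace
    + (P k (2 * n + 1) * P k (2 * n + 1)).trace - 2 * (P (k + 1) n * P (k + 1) n).trace with hdP
  set dQ : ℤ → ℝ := fun n => (Q k (2 * n) * Q k (2 * n)).trace
    + (Q k (2 * n + 1) * Q k (2 * n + 1)).trace - 2 * (Q (k + 1) n * Q (k + 1) n).trace with hdQ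
  have nn : ∀ (P : ℕ → ℤ → Matrix ι ι ℝ), Out N k P → (∀ a n, (P a n)ᵀ = P a n) → ∀ n,
      0 ≤ (P k (2 * n) * P k (2 * n)).trace
        + (P k (2 * n + 1) * P k (2 * n + 1)).trace - 2 * (P (k + 1) n * P (k + 1) n).trace := by
    intro P hP sP n
    rw [hP k le_rfl h n, ← mean_dist]
    refine add_nonneg (P075.trace_sq_nonneg ?_) (P075.trace_sq_nonneg ?_) <;>
    simp only [transpose_sub, transpose_smul, transpose_add, sP]
  have hP0 : ∀ n, 0 ≤ dP n := nn P hP sP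
  have hQ0 : ∀ n, 0 ≤ dQ n := nn Q hQ sQ
  have hpt : ∀ n n', (P (k + 1) n * Q (k + 1) n').trace
      ≤ (1 / 2) * ((P k (2 * n) * Q k (2 * n' + 1)).trace + (P k (2 * n + 1) * Q k (2 * n')).trace)
        + (1 / 4) * dP n + (1 / 4) * dQ n' := by
    intro n n'
    simp only [hdP, hdQ]
    rw [hP k le_rfl h n, hQ k le_rfl h n']
    exact opp_pt (sP _ _) (sP _ _) (sQ _ _) (sQ _ _)
  have e : N - k = (N - (k + 1)) + 1 := by omega
  have herr : ∀ (R : ℤ) (P : ℕ → ℤ → Matrix ι ι ℝ), 2 ^ (k + 1) * ((1 / 4) *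
      ∑ n ∈ iv (N - (k + 1)) R, ((P k (2 * n) * P k (2 * n)).trace
        + (P k (2 * n + 1) * P k (2 * n + 1)).trace - 2 * (P (k + 1) n * P (k + 1) n).trace))
      = (1 / 2) * (eW N R P k - eW N R P (k + 1)) := by
    intro R P
    unfold eW
    rw [e, H588.sum_iv_succ, Finset.sum_sub_distrib, ← Finset.mul_sum, pow_succ]
    ring
  have hsum : ∑ n ∈ iv (N - (k + 1)) R, (if s - n ∈ iv (N - (k + 1)) T then
      (P (k + 1) n * Q (k + 1) (s - n)).trace else 0)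
      ≤ (1 / 2) * alW N R T k (P k) (Q k) (2 * s + 1)
        + (1 / 4) * ∑ n ∈ iv (N - (k + 1)) R, dP n + (1 / 4) * ∑ n ∈ iv (N - (k + 1)) T, dQ n := by
    have h5 := H588.sum_refl_le (N - (k + 1)) R T s dQ hQ0
    have h6 := mul_le_mul_of_nonneg_left h5 (by norm_num : (0 : ℝ) ≤ 1 / 4)
    refine le_trans ?_ (add_le_add_right h6 _)
    rw [← alW_split h, Finset.mul_sum, Finset.mul_sum, Finset.mul_sum, ← Finset.sum_add_distrib,
      ← Finset.sum_add_distrib]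
    refine Finset.sum_le_sum fun n _ => ?_
    split_ifs with hc
    · exact hpt n (s - n)
    · have := hP0 n
      simp only [mul_zero, zero_add, add_zero]
      positivity
  have h7 := mul_le_mul_of_nonneg_left hsum (show (0 : ℝ) ≤ 2 ^ (k + 1) by positivity)
  refine h7.trans (le_of_eq ?_)
  rw [mul_add, mul_add, herr R P, herr T Q, pow_succ]
  ring

/-! ### All middle indices -/

variable {κ : Type*} [Fintype κ]

/-- plane functional at scale `k`, plane `n + m + n' = c` -/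
def MW (N : ℕ) (R S T : ℤ) (k : ℕ) (c : ℤ) (p q : ℤ → ℤ → Matrix ι ι ℝ) : ℝ :=
  (4 : ℝ) ^ k * ∑ m ∈ iv (N - k) S, ∑ n ∈ iv (N - k) R,
    if c - m - n ∈ iv (N - k) T then (p n m * q (c - m - n) m).trace else 0

/-- plane sum of the gains at scale `k` -/
def GW (N : ℕ) (R S T : ℤ) (k : ℕ) (c : ℤ) (g : ℤ → ℤ → ℤ → ℝ) : ℝ :=
  (4 : ℝ) ^ k * ∑ m ∈ iv (N - k) S, ∑ n ∈ iv (N - k) R,
    if c - m - n ∈ iv (N - k) T then g n (c - m - n) m else 0

/-- own energy: middle scale `k`, outer scale `a` -/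
def EW (N : ℕ) (R S : ℤ) (k : ℕ) (P : ℕ → ℤ → ℤ → Matrix ι ι ℝ) (a : ℕ) : ℝ :=
  (2 : ℝ) ^ a * 2 ^ k * ∑ m ∈ iv (N - k) S, ∑ n ∈ iv (N - a) R, (P a n m * P a n m).trace

/-- outer averages for every middle index -/
def OutM (N k : ℕ) (P : ℕ → ℤ → ℤ → Matrix ι ι ℝ) : Prop :=
  ∀ a, k ≤ a → a < N → ∀ n m, P (a + 1) n m = (1 / 2 : ℝ) • (P a (2 * n) m + P a (2 * n + 1) m)

theorem EW_eq (N : ℕ) (R S : ℤ) (k : ℕ) (P : ℕ → ℤ → ℤ → Matrix ι ι ℝ) (a : ℕ) :
    EW N R S k P a = 2 ^ k * ∑ m ∈ iv (N - k) S, eW N R (fun a n => P a n m) a := by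
  unfold EW eW
  rw [← Finset.mul_sum]
  ring

theorem SEW_eq (N : ℕ) (R S : ℤ) (k : ℕ) (P : ℕ → ℤ → ℤ → Matrix ι ι ℝ) :
    SEW N k (EW N R S k P)
      = 2 ^ k * ∑ m ∈ iv (N - k) S, SEW N k (eW N R (fun a n => P a n m)) := by
  unfold SEW
  simp only [EW_eq]
  rw [Finset.sum_add_distrib, mul_add, ← Finset.mul_sum, Finset.sum_comm]
  congr 1
  · rw [Finset.mul_sum]
    refine Finset.sum_congr rfl fun r _ => ?_
    rw [← Finset.mul_sum, Finset.sum_sub_distrib]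
    ring
  · ring

theorem eW_anti {N k : ℕ} {R : ℤ} {P : ℕ → ℤ → Matrix ι ι ℝ} (hO : Out N k P)
    (sP : ∀ a n, (P a n)ᵀ = P a n) {a : ℕ} (ha : k ≤ a) (haN : a < N) :
    eW N R P (a + 1) ≤ eW N R P a := by
  obtain ⟨r, rfl⟩ := Nat.exists_eq_add_of_le ha
  have h := level_eq (R := R) hO haN
  have h2 : 0 ≤ (2 : ℝ) ^ k * ∑' n, ((fW N k R P r n - fW N k R P (r + 1) n)
        * (fW N k R P r n - fW N k R P (r + 1) n)).trace := by
    refine mul_nonneg (by positivity) (tsum_nonneg fun n => P075.trace_sq_nonneg ?_)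
    rw [transpose_sub, fW_symm sP, fW_symm sP]
  linarith

theorem eW_nonneg {N : ℕ} {R : ℤ} {P : ℕ → ℤ → Matrix ι ι ℝ} (sP : ∀ a n, (P a n)ᵀ = P a n)
    (a : ℕ) : 0 ≤ eW N R P a :=
  mul_nonneg (by positivity) (Finset.sum_nonneg fun n _ => P075.trace_sq_nonneg (sP a n))

theorem EW_nonneg {N : ℕ} {R S : ℤ} {k : ℕ} {P : ℕ → ℤ → ℤ → Matrix ι ι ℝ}
    (sP : ∀ a n m, (P a n m)ᵀ = P a n m) (a : ℕ) : 0 ≤ EW N R S k P a :=
  mul_nonneg (by positivity) (Finset.sum_nonneg fun m _ => Finset.sum_nonneg fun n _ =>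
    P075.trace_sq_nonneg (sP a n m))

theorem EW_anti {N k : ℕ} {R S : ℤ} {P : ℕ → ℤ → ℤ → Matrix ι ι ℝ} (hO : OutM N k P)
    (sP : ∀ a n m, (P a n m)ᵀ = P a n m) {a : ℕ} (ha : k ≤ a) (haN : a < N) :
    EW N R S k P (a + 1) ≤ EW N R S k P a := by
  rw [EW_eq, EW_eq]
  refine mul_le_mul_of_nonneg_left (Finset.sum_le_sum fun m _ => ?_) (by positivity)
  exact eW_anti (fun a h1 h2 n => hO a h1 h2 n m) (fun a n => sP a n m) ha haN

theorem EW_anti' {N k : ℕ} {R S : ℤ} {P : ℕ → ℤ → ℤ → Matrix ι ι ℝ} (hO : OutM N k P)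
    (sP : ∀ a n m, (P a n m)ᵀ = P a n m) {a : ℕ} (ha : k ≤ a) (haN : a ≤ N) :
    EW N R S k P a ≤ EW N R S k P k := by
  induction a, ha using Nat.le_induction with
  | base => exact le_rfl
  | succ a ha ih => exact (EW_anti hO sP ha (by omega)).trans (ih (by omega))

/-- the first defect is at most the shift energy -/
theorem first_le_SEW {N k : ℕ} (hk : k < N) {e : ℕ → ℝ} (h : ∀ a, k ≤ a → a < N → e (a + 1) ≤ e a)
    (hN : 0 ≤ e N) : e k - e (k + 1) ≤ SEW N k e := by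
  unfold SEW
  obtain ⟨l, hl⟩ : ∃ l, N - k = l + 1 := ⟨N - k - 1, by omega⟩
  rw [hl, Finset.sum_range_succ']
  have h1 : 0 ≤ ∑ r ∈ range l, (3 / 4 : ℝ) ^ (r + 1)
      * (e (k + (r + 1)) - e (k + (r + 1) + 1)) := by
    refine Finset.sum_nonneg fun r hr => mul_nonneg (by positivity) ?_
    have := Finset.mem_range.1 hr
    have := h (k + (r + 1)) (by omega) (by omega)
    linarith
  have h2 : 0 ≤ (3 / 4 : ℝ) ^ (l + 1) * e N := by positivity
  simp only [pow_zero, one_mul, add_zero]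
  linarith

/-- **The step.** -/
theorem stepW {N k : ℕ} (h : k < N) {R S T : ℤ} {c : ℕ → ℤ} (hc : H588.Pl c)
    {P Q : ℕ → ℤ → ℤ → Matrix ι ι ℝ} {pu qu : ℤ → ℤ → Matrix κ κ ℝ} {g : ℤ → ℤ → ℤ → ℝ}
    (hP : OutM N k P) (hQ : OutM N k Q) (sP : ∀ a n m, (P a n m)ᵀ = P a n m)
    (sQ : ∀ a n m, (Q a n m)ᵀ = Q a n m)
    (mid : ∀ n n' m, (pu n m * qu n' m).trace + g n n' m
      ≤ (1 / 2) * ((P (k + 1) n (2 * m) * Q (k + 1) n' (2 * m)).trace
        + (P (k + 1) n (2 * m + 1) * Q (k + 1) n' (2 * m + 1)).trace)) :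
    MW N R S T (k + 1) (c (k + 1)) pu qu + GW N R S T (k + 1) (c (k + 1)) g
      ≤ MW N R S T k (c k) (P k) (Q k)
        + 9 * (SEW N k (EW N R S k P) + SEW N k (EW N T S k Q)) := by
  have e : N - k = (N - (k + 1)) + 1 := by omega
  -- the middle split
  have h1 : MW N R S T (k + 1) (c (k + 1)) pu qu + GW N R S T (k + 1) (c (k + 1)) g
      ≤ 2 ^ k * ∑ m ∈ iv (N - k) S, (2 ^ (k + 1) * ∑ n ∈ iv (N - (k + 1)) R,
        (if c (k + 1) - m / 2 - n ∈ iv (N - (k + 1)) T then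
          (P (k + 1) n m * Q (k + 1) (c (k + 1) - m / 2 - n) m).trace else 0)) := by
    rw [e, H588.sum_iv_succ]
    unfold MW GW
    rw [← mul_add, ← Finset.sum_add_distrib]
    have h4 : (4 : ℝ) ^ (k + 1) = 2 ^ k * (2 * 2 ^ (k + 1)) := by
      rw [show (4 : ℝ) = 2 * 2 by norm_num, mul_pow, pow_succ]; ring
    rw [h4, mul_assoc]
    refine mul_le_mul_of_nonneg_left ?_ (by positivity)
    rw [Finset.mul_sum]
    refine Finset.sum_le_sum fun m _ => ?_
    have e1 : 2 * m / 2 = m := by omega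
    have e2 : (2 * m + 1) / 2 = m := by omega
    rw [e1, e2, ← mul_add, mul_comm (2 : ℝ) (2 ^ (k + 1)), mul_assoc]
    refine mul_le_mul_of_nonneg_left ?_ (by positivity)
    rw [← Finset.sum_add_distrib, ← Finset.sum_add_distrib, Finset.mul_sum]
    refine Finset.sum_le_sum fun n _ => ?_
    split_ifs with hcc
    · have := mid n (c (k + 1) - m - n) m
      linarith
    · simp
  refine h1.trans ?_
  -- the outer split and the shift
  have h2 : ∀ m, 2 ^ (k + 1) * ∑ n ∈ iv (N - (k + 1)) R,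
        (if c (k + 1) - m / 2 - n ∈ iv (N - (k + 1)) T then
          (P (k + 1) n m * Q (k + 1) (c (k + 1) - m / 2 - n) m).trace else 0)
      ≤ 2 ^ k * alW N R T k (fun n => P k n m) (fun n => Q k n m) (c k - m)
        + 9 * (SEW N k (eW N R (fun a n => P a n m)) + SEW N k (eW N T (fun a n => Q a n m))) := by
    intro m
    have oP : Out N k (fun a n => P a n m) := fun a h1 h2 n => hP a h1 h2 n m
    have oQ : Out N k (fun a n => Q a n m) := fun a h1 h2 n => hQ a h1 h2 n m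
    have yP : ∀ a n, ((fun a n => P a n m) a n)ᵀ = (fun a n => P a n m) a n := fun a n => sP a n m
    have yQ : ∀ a n, ((fun a n => Q a n m) a n)ᵀ = (fun a n => Q a n m) a n := fun a n => sQ a n m
    have q1 := outer_split h (R := R) (T := T) oP oQ yP yQ (c (k + 1) - m / 2)
    have q2 := shiftW h.le (R := R) (T := T) oP oQ yP yQ (t := c k - m)
      (t' := 2 * (c (k + 1) - m / 2) + 1) (D := 2) (by
        have := hc k
        rw [abs_le]
        push_cast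
        constructor <;> omega)
    have q3 := first_le_SEW h (e := eW N R (fun a n => P a n m))
      (fun a h1 h2 => eW_anti oP yP h1 h2) (eW_nonneg yP N)
    have q4 := first_le_SEW h (e := eW N T (fun a n => Q a n m))
      (fun a h1 h2 => eW_anti oQ yQ h1 h2) (eW_nonneg yQ N)
    have q5 : (2 : ℝ) ^ k * (alW N R T k (fun n => P k n m) (fun n => Q k n m)
          (2 * (c (k + 1) - m / 2) + 1) - alW N R T k (fun n => P k n m) (fun n => Q k n m)
          (c k - m)) ≤ 2 ^ k * |alW N R T k (fun n => P k n m) (fun n => Q k n m)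
          (2 * (c (k + 1) - m / 2) + 1) - alW N R T k (fun n => P k n m) (fun n => Q k n m)
          (c k - m)| := mul_le_mul_of_nonneg_left (le_abs_self _) (by positivity)
    have p3 : 0 ≤ eW N R (fun a n => P a n m) k - eW N R (fun a n => P a n m) (k + 1) := by
      have := eW_anti (R := R) oP yP le_rfl h
      linarith
    have p4 : 0 ≤ eW N T (fun a n => Q a n m) k - eW N T (fun a n => Q a n m) (k + 1) := by
      have := eW_anti (R := T) oQ yQ le_rfl h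
      linarith
    push_cast at q2
    linarith
  refine (mul_le_mul_of_nonneg_left (Finset.sum_le_sum fun m _ => h2 m) (by positivity)).trans
    (le_of_eq ?_)
  rw [SEW_eq, SEW_eq, Finset.sum_add_distrib, ← Finset.mul_sum, ← Finset.mul_sum,
    Finset.sum_add_distrib, MW]
  have h4 : (4 : ℝ) ^ k = 2 ^ k * 2 ^ k := by rw [← mul_pow]; norm_num
  rw [h4]
  unfold alW
  ring

theorem abs_trace_le {A B : Matrix ι ι ℝ} (hA : Aᵀ = A) (hB : Bᵀ = B) :
    |(A * B).trace| ≤ (1 / 2) * (A * A).trace + (1 / 2) * (B * B).trace := by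
  have h1 := P075.trace_sq_nonneg (B := A - B) (by rw [transpose_sub, hA, hB])
  have h2 := P075.trace_sq_nonneg (B := A + B) (by rw [transpose_add, hA, hB])
  have c := trace_mul_comm B A
  simp only [Matrix.sub_mul, Matrix.mul_sub, Matrix.add_mul, Matrix.mul_add, trace_sub,
    trace_add] at h1 h2
  rw [c] at h1 h2
  rw [abs_le]
  constructor <;> linarith

/-- the functional is at most half of the own energies, both signs -/
theorem abs_MW_le (N : ℕ) (R S T : ℤ) (k : ℕ) (c : ℤ) {P Q : ℕ → ℤ → ℤ → Matrix ι ι ℝ}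
    (sP : ∀ a n m, (P a n m)ᵀ = P a n m) (sQ : ∀ a n m, (Q a n m)ᵀ = Q a n m) :
    |MW N R S T k c (P k) (Q k)| ≤ (1 / 2) * (EW N R S k P k + EW N T S k Q k) := by
  unfold MW EW
  have h4 : (4 : ℝ) ^ k = 2 ^ k * 2 ^ k := by rw [← mul_pow]; norm_num
  rw [h4, abs_mul, abs_of_nonneg (by positivity : (0 : ℝ) ≤ 2 ^ k * 2 ^ k), ← mul_add,
    mul_left_comm]
  refine mul_le_mul_of_nonneg_left ?_ (by positivity)
  rw [← Finset.sum_add_distrib, Finset.mul_sum]
  refine (Finset.abs_sum_le_sum_abs _ _).trans (Finset.sum_le_sum fun m _ => ?_)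
  have h := H588.sum_refl_le (N - k) R T (c - m) (fun n => (1 / 2) * (Q k n m * Q k n m).trace)
    (fun n => mul_nonneg (by norm_num) (P075.trace_sq_nonneg (sQ k n m)))
  rw [mul_add, Finset.mul_sum, Finset.mul_sum]
  refine le_trans ?_ (add_le_add_right h _)
  rw [← Finset.sum_add_distrib]
  refine (Finset.abs_sum_le_sum_abs _ _).trans (Finset.sum_le_sum fun n _ => ?_)
  have h0 := P075.trace_sq_nonneg (sP k n m)
  split_ifs with hc
  · exact abs_trace_le (sP k n m) (sQ k (c - m - n) m)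
  · simp only [abs_zero]
    positivity

/-! ### Telescoping -/

/-- weighted own energies with coarser outer scales -/
def WW (N k : ℕ) (e : ℕ → ℝ) : ℝ := ∑ r ∈ range (N - k + 1), (3 / 4 : ℝ) ^ r * e (k + r)

theorem WW_step {N k : ℕ} (h : k < N) {e e' d : ℕ → ℝ}
    (hm : ∀ a, k + 1 ≤ a → a ≤ N → e' a ≤ e a + d a) :
    WW N (k + 1) e' + SEW N k e ≤ WW N k e + WW N (k + 1) d := by
  unfold WW SEW
  have e1 : N - (k + 1) + 1 = N - k := by omega
  have e2 : k + (N - k) = N := by omega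
  rw [e1, sum_range_succ, e2]
  have h1 : ∑ r ∈ range (N - k), (3 / 4 : ℝ) ^ r * e' (k + 1 + r)
      ≤ ∑ r ∈ range (N - k), (3 / 4 : ℝ) ^ r * e (k + r + 1)
        + ∑ r ∈ range (N - k), (3 / 4 : ℝ) ^ r * d (k + 1 + r) := by
    rw [← sum_add_distrib]
    refine sum_le_sum fun r hr => ?_
    have := mem_range.1 hr
    have h2 := hm (k + 1 + r) (by omega) (by omega)
    rw [show k + r + 1 = k + 1 + r by ring, ← mul_add]
    exact mul_le_mul_of_nonneg_left h2 (by positivity)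
  have h2 : ∑ r ∈ range (N - k), (3 / 4 : ℝ) ^ r * (e (k + r) - e (k + r + 1))
      = ∑ r ∈ range (N - k), (3 / 4 : ℝ) ^ r * e (k + r)
        - ∑ r ∈ range (N - k), (3 / 4 : ℝ) ^ r * e (k + r + 1) := by
    rw [← sum_sub_distrib]
    exact sum_congr rfl fun r _ => by ring
  rw [h2]
  linarith

theorem WW_le {N k : ℕ} {e : ℕ → ℝ} (h0 : 0 ≤ e k) (h : ∀ a, k ≤ a → a ≤ N → e a ≤ e k) :
    WW N k e ≤ 4 * e k := by
  unfold WW
  have h1 : ∑ r ∈ range (N - k + 1), (3 / 4 : ℝ) ^ r * e (k + r)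
      ≤ ∑ r ∈ range (N - k + 1), (3 / 4 : ℝ) ^ r * e k := by
    refine sum_le_sum fun r hr => mul_le_mul_of_nonneg_left ?_ (by positivity)
    by_cases hk : k ≤ N
    · have := mem_range.1 hr
      exact h _ (by omega) (by omega)
    · have := mem_range.1 hr
      have h3 : r = 0 := by omega
      rw [h3, add_zero]
  refine h1.trans ?_
  rw [← sum_mul]
  refine mul_le_mul_of_nonneg_right ?_ h0
  have h2 : ∀ n : ℕ, ∑ r ∈ range n, (3 / 4 : ℝ) ^ r = 4 - 4 * (3 / 4) ^ n := by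
    intro n
    induction n with
    | zero => simp
    | succ n ih => rw [sum_range_succ, ih, pow_succ]; ring
  rw [h2]
  have : (0 : ℝ) ≤ (3 / 4) ^ (N - k + 1) := by positivity
  linarith

theorem le_WW {N k : ℕ} {e : ℕ → ℝ} (h : ∀ a, 0 ≤ e a) : e k ≤ WW N k e := by
  unfold WW
  rw [sum_range_succ']
  have h1 : 0 ≤ ∑ r ∈ range (N - k), (3 / 4 : ℝ) ^ (r + 1) * e (k + (r + 1)) :=
    sum_nonneg fun r _ => mul_nonneg (by positivity) (h _)
  simp only [pow_zero, one_mul, add_zero]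
  linarith

/-- **Telescoping**, abstract: `M k` functional, `E k a`, `F k a` own energies at scale `k` of the
functions of time `k`; `M' k`, `E' k a`, `F' k a` the same with the functions of time `k + 1`;
`g` gains minus defects; `dE`, `dF` middle defects of the own energies; `x` changes. -/
theorem telW {k₀ N : ℕ} (hkN : k₀ ≤ N) {M M' g x : ℕ → ℝ} {E E' F F' dE dF : ℕ → ℕ → ℝ}
    (h1 : ∀ k, k₀ ≤ k → k < N → M (k + 1) + g (k + 1)
      ≤ M' k + 9 * (SEW N k (E' k) + SEW N k (F' k)))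
    (h2 : ∀ k, k₀ ≤ k → k < N → ∀ a, k + 1 ≤ a → a ≤ N → E (k + 1) a ≤ E' k a + dE k a)
    (h3 : ∀ k, k₀ ≤ k → k < N → ∀ a, k + 1 ≤ a → a ≤ N → F (k + 1) a ≤ F' k a + dF k a)
    (h4 : ∀ k, k₀ ≤ k → k < N → M' k + 9 * (WW N k (E' k) + WW N k (F' k))
      ≤ M k + 9 * (WW N k (E k) + WW N k (F k)) + x k) :
    ∑ k ∈ Ico k₀ N, g (k + 1) + (M N + 9 * (WW N N (E N) + WW N N (F N)))
      ≤ M k₀ + 9 * (WW N k₀ (E k₀) + WW N k₀ (F k₀)) + ∑ k ∈ Ico k₀ N, x k
        + 9 * ∑ k ∈ Ico k₀ N, (WW N (k + 1) (dE k) + WW N (k + 1) (dF k)) := by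
  have key : ∀ K, k₀ ≤ K → K ≤ N →
      ∑ k ∈ Ico k₀ K, g (k + 1) + (M K + 9 * (WW N K (E K) + WW N K (F K)))
      ≤ M k₀ + 9 * (WW N k₀ (E k₀) + WW N k₀ (F k₀)) + ∑ k ∈ Ico k₀ K, x k
        + 9 * ∑ k ∈ Ico k₀ K, (WW N (k + 1) (dE k) + WW N (k + 1) (dF k)) := by
    intro K hK
    induction K, hK using Nat.le_induction with
    | base => intro _; simp
    | succ K hK ih =>
      intro hKN
      have hlt : K < N := by omega
      have q := ih hlt.le
      have q1 := h1 K hK hlt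
      have q2 := WW_step hlt (h2 K hK hlt)
      have q3 := WW_step hlt (h3 K hK hlt)
      have q4 := h4 K hK hlt
      rw [sum_Ico_succ_top hK, sum_Ico_succ_top hK, sum_Ico_succ_top hK]
      linarith
  exact key N hkN le_rfl

/-- **The sum of the gains over all scales.** `P k`, `Q k` : families at middle scale `k` of the
functions of time `k`; `P' k`, `Q' k` : of the functions of time `k + 1`; `g k` : gain minus defect
of the middle step `k + 1 → k`; `dE k a`, `dF k a` : defects of the own energies; `x k` : changes. -/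
theorem totalW {k₀ N : ℕ} (hkN : k₀ ≤ N) {R S T : ℤ} {c : ℕ → ℤ} (hc : H588.Pl c)
    {ι : ℕ → Type*} [∀ k, Fintype (ι k)]
    {P P' Q Q' : ∀ k, ℕ → ℤ → ℤ → Matrix (ι k) (ι k) ℝ} {g : ℕ → ℤ → ℤ → ℤ → ℝ}
    {dE dF : ℕ → ℕ → ℝ} {x : ℕ → ℝ}
    (oP : ∀ k, k₀ ≤ k → k ≤ N → OutM N k (P k)) (oQ : ∀ k, k₀ ≤ k → k ≤ N → OutM N k (Q k))
    (oP' : ∀ k, k₀ ≤ k → k < N → OutM N k (P' k)) (oQ' : ∀ k, k₀ ≤ k → k < N → OutM N k (Q' k))
    (sP : ∀ k a n m, (P k a n m)ᵀ = P k a n m) (sQ : ∀ k a n m, (Q k a n m)ᵀ = Q k a n m)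
    (sP' : ∀ k a n m, (P' k a n m)ᵀ = P' k a n m) (sQ' : ∀ k a n m, (Q' k a n m)ᵀ = Q' k a n m)
    (mid : ∀ k, k₀ ≤ k → k < N → ∀ n n' m,
      (P (k + 1) (k + 1) n m * Q (k + 1) (k + 1) n' m).trace + g k n n' m
      ≤ (1 / 2) * ((P' k (k + 1) n (2 * m) * Q' k (k + 1) n' (2 * m)).trace
        + (P' k (k + 1) n (2 * m + 1) * Q' k (k + 1) n' (2 * m + 1)).trace))
    (hE : ∀ k, k₀ ≤ k → k < N → ∀ a, k + 1 ≤ a → a ≤ N →
      EW N R S (k + 1) (P (k + 1)) a ≤ EW N R S k (P' k) a + dE k a)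
    (hF : ∀ k, k₀ ≤ k → k < N → ∀ a, k + 1 ≤ a → a ≤ N →
      EW N T S (k + 1) (Q (k + 1)) a ≤ EW N T S k (Q' k) a + dF k a)
    (hx : ∀ k, k₀ ≤ k → k < N → MW N R S T k (c k) (P' k k) (Q' k k)
      + 9 * (WW N k (EW N R S k (P' k)) + WW N k (EW N T S k (Q' k)))
      ≤ MW N R S T k (c k) (P k k) (Q k k)
      + 9 * (WW N k (EW N R S k (P k)) + WW N k (EW N T S k (Q k))) + x k) :
    ∑ k ∈ Ico k₀ N, GW N R S T (k + 1) (c (k + 1)) (g k)
      ≤ 37 * (EW N R S k₀ (P k₀) k₀ + EW N T S k₀ (Q k₀) k₀) + ∑ k ∈ Ico k₀ N, x k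
        + 9 * ∑ k ∈ Ico k₀ N, (WW N (k + 1) (dE k) + WW N (k + 1) (dF k)) := by
  have h := telW hkN (M := fun k => MW N R S T k (c k) (P k k) (Q k k))
    (M' := fun k => MW N R S T k (c k) (P' k k) (Q' k k))
    (g := fun k => GW N R S T k (c k) (g (k - 1))) (x := x)
    (E := fun k => EW N R S k (P k)) (E' := fun k => EW N R S k (P' k))
    (F := fun k => EW N T S k (Q k)) (F' := fun k => EW N T S k (Q' k)) (dE := dE) (dF := dF)
    (fun k h1 h2 => by
      simp only [Nat.add_sub_cancel]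
      exact stepW h2 hc (oP' k h1 h2) (oQ' k h1 h2) (sP' k) (sQ' k) (mid k h1 h2))
    hE hF hx
  simp only [Nat.add_sub_cancel] at h
  have q1 := abs_le.1 (abs_MW_le N R S T N (c N) (sP N) (sQ N))
  have q2 := le_WW (N := N) (k := N) (e := EW N R S N (P N)) (EW_nonneg (sP N))
  have q3 := le_WW (N := N) (k := N) (e := EW N T S N (Q N)) (EW_nonneg (sQ N))
  have q4 := EW_nonneg (N := N) (R := R) (S := S) (k := N) (sP N) N
  have q5 := EW_nonneg (N := N) (R := T) (S := S) (k := N) (sQ N) N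
  have p1 := abs_le.1 (abs_MW_le N R S T k₀ (c k₀) (sP k₀) (sQ k₀))
  have p2 := WW_le (N := N) (k := k₀) (e := EW N R S k₀ (P k₀)) (EW_nonneg (sP k₀) k₀)
    fun a h1 h2 => EW_anti' (oP k₀ le_rfl hkN) (sP k₀) h1 h2
  have p3 := WW_le (N := N) (k := k₀) (e := EW N T S k₀ (Q k₀)) (EW_nonneg (sQ k₀) k₀)
    fun a h1 h2 => EW_anti' (oQ k₀ le_rfl hkN) (sQ k₀) h1 h2
  have p4 := EW_nonneg (N := N) (R := R) (S := S) (k := k₀) (sP k₀) k₀
  have p5 := EW_nonneg (N := N) (R := T) (S := S) (k := k₀) (sQ k₀) k₀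
  linarith

/-! ### Scaling -/

theorem EW_smul (N : ℕ) (R S : ℤ) (k : ℕ) (μ : ℝ) (P : ℕ → ℤ → ℤ → Matrix ι ι ℝ) (a : ℕ) :
    EW N R S k (fun a n m => μ • P a n m) a = μ ^ 2 * EW N R S k P a := by
  unfold EW
  simp only [Matrix.smul_mul, Matrix.mul_smul, trace_smul, smul_eq_mul, ← Finset.mul_sum]
  ring

theorem MW_smul (N : ℕ) (R S T : ℤ) (k : ℕ) (c : ℤ) {μ : ℝ} (hμ : μ ≠ 0)
    (p q : ℤ → ℤ → Matrix ι ι ℝ) :
    MW N R S T k c (fun n m => μ • p n m) (fun n m => μ⁻¹ • q n m) = MW N R S T k c p q := by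
  unfold MW
  refine congrArg _ (Finset.sum_congr rfl fun m _ => Finset.sum_congr rfl fun n _ => ?_)
  rw [Matrix.smul_mul, Matrix.mul_smul, smul_smul, mul_inv_cancel₀ hμ, one_smul]

omit [Fintype ι] in
theorem OutM.smul {N k : ℕ} {P : ℕ → ℤ → ℤ → Matrix ι ι ℝ} (h : OutM N k P) (μ : ℝ) :
    OutM N k (fun a n m => μ • P a n m) := fun a h1 h2 n m => by
  simp only
  rw [h a h1 h2 n m, smul_comm, smul_add]

/-- **Gains of a static pair**, product form. -/
theorem totalW_sqrt {k₀ N : ℕ} (hkN : k₀ ≤ N) {R S T : ℤ} {c : ℕ → ℤ} (hc : H588.Pl c)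
    {ι : ℕ → Type*} [∀ k, Fintype (ι k)]
    {P Q : ∀ k, ℕ → ℤ → ℤ → Matrix (ι k) (ι k) ℝ} {g : ℕ → ℤ → ℤ → ℤ → ℝ}
    (oP : ∀ k, k₀ ≤ k → k ≤ N → OutM N k (P k)) (oQ : ∀ k, k₀ ≤ k → k ≤ N → OutM N k (Q k))
    (sP : ∀ k a n m, (P k a n m)ᵀ = P k a n m) (sQ : ∀ k a n m, (Q k a n m)ᵀ = Q k a n m)
    (mid : ∀ k, k₀ ≤ k → k < N → ∀ n n' m,
      (P (k + 1) (k + 1) n m * Q (k + 1) (k + 1) n' m).trace + g k n n' m
      ≤ (1 / 2) * ((P k (k + 1) n (2 * m) * Q k (k + 1) n' (2 * m)).trace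
        + (P k (k + 1) n (2 * m + 1) * Q k (k + 1) n' (2 * m + 1)).trace))
    (hE : ∀ k, k₀ ≤ k → k < N → ∀ a, k + 1 ≤ a → a ≤ N →
      EW N R S (k + 1) (P (k + 1)) a ≤ EW N R S k (P k) a)
    (hF : ∀ k, k₀ ≤ k → k < N → ∀ a, k + 1 ≤ a → a ≤ N →
      EW N T S (k + 1) (Q (k + 1)) a ≤ EW N T S k (Q k) a) :
    ∑ k ∈ Ico k₀ N, GW N R S T (k + 1) (c (k + 1)) (g k)
      ≤ 74 * √(EW N R S k₀ (P k₀) k₀ * EW N T S k₀ (Q k₀) k₀) := by
  set G := ∑ k ∈ Ico k₀ N, GW N R S T (k + 1) (c (k + 1)) (g k) with hG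
  set X := EW N R S k₀ (P k₀) k₀ with hX
  set Y := EW N T S k₀ (Q k₀) k₀ with hY
  have X0 : 0 ≤ X := EW_nonneg (sP k₀) k₀
  have Y0 : 0 ≤ Y := EW_nonneg (sQ k₀) k₀
  have key : ∀ μ : ℝ, 0 < μ → G ≤ 37 * (μ ^ 2 * X + (μ⁻¹) ^ 2 * Y) := by
    intro μ hμ
    have h := totalW hkN hc (P := fun k a n m => μ • P k a n m)
      (P' := fun k a n m => μ • P k a n m) (Q := fun k a n m => μ⁻¹ • Q k a n m)
      (Q' := fun k a n m => μ⁻¹ • Q k a n m) (g := g) (dE := fun _ _ => 0) (dF := fun _ _ => 0)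
      (x := fun _ => 0) (R := R) (S := S) (T := T)
      (fun k h1 h2 => (oP k h1 h2).smul μ) (fun k h1 h2 => (oQ k h1 h2).smul μ⁻¹)
      (fun k h1 h2 => (oP k h1 h2.le).smul μ) (fun k h1 h2 => (oQ k h1 h2.le).smul μ⁻¹)
      (fun k a n m => by rw [transpose_smul, sP]) (fun k a n m => by rw [transpose_smul, sQ])
      (fun k a n m => by rw [transpose_smul, sP]) (fun k a n m => by rw [transpose_smul, sQ])
      (fun k h1 h2 n n' m => by
        have := mid k h1 h2 n n' m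
        simp only [Matrix.smul_mul, Matrix.mul_smul, smul_smul,
          inv_mul_cancel₀ hμ.ne', one_smul]
        exact this)
      (fun k h1 h2 a h3 h4 => by
        simp only [EW_smul, add_zero]
        exact mul_le_mul_of_nonneg_left (hE k h1 h2 a h3 h4) (sq_nonneg _))
      (fun k h1 h2 a h3 h4 => by
        simp only [EW_smul, add_zero]
        exact mul_le_mul_of_nonneg_left (hF k h1 h2 a h3 h4) (sq_nonneg _))
      (fun k h1 h2 => by simp)
    simp only [EW_smul, sum_const_zero, add_zero, WW, mul_zero] at h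
    exact h
  -- optimise
  rw [Real.sqrt_mul X0]
  have sX := Real.sq_sqrt X0
  have sY := Real.sq_sqrt Y0
  have nX := Real.sqrt_nonneg X
  have nY := Real.sqrt_nonneg Y
  refine le_of_forall_pos_le_add fun ε hε => ?_
  -- replace the square roots by positive numbers
  set δ : ℝ := min 1 (ε / (74 * (√X + √Y + 1))) with hδ
  have hden : 0 < 74 * (√X + √Y + 1) := by positivity
  have δ0 : 0 < δ := lt_min one_pos (by positivity)
  have δ1 : δ ≤ 1 := min_le_left _ _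
  have δ2 : 74 * (√X + √Y + 1) * δ ≤ ε := by
    have := min_le_right (1 : ℝ) (ε / (74 * (√X + √Y + 1)))
    rw [← hδ, le_div_iff₀ hden] at this
    linarith
  have a0 : 0 < √X + δ := by positivity
  have b0 : 0 < √Y + δ := by positivity
  have h := key (√((√Y + δ) / (√X + δ))) (Real.sqrt_pos.2 (div_pos b0 a0))
  rw [inv_pow, Real.sq_sqrt (div_pos b0 a0).le, inv_div] at h
  have c1 : (√Y + δ) / (√X + δ) * X ≤ (√Y + δ) * (√X + δ) := by
    rw [div_mul_eq_mul_div, div_le_iff₀ a0, mul_assoc]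
    refine mul_le_mul_of_nonneg_left ?_ b0.le
    nlinarith
  have c2 : (√X + δ) / (√Y + δ) * Y ≤ (√Y + δ) * (√X + δ) := by
    rw [div_mul_eq_mul_div, div_le_iff₀ b0]
    have : Y ≤ (√Y + δ) * (√Y + δ) := by nlinarith
    calc (√X + δ) * Y ≤ (√X + δ) * ((√Y + δ) * (√Y + δ)) :=
          mul_le_mul_of_nonneg_left this a0.le
      _ = _ := by ring
  have c3 : (√Y + δ) * (√X + δ) ≤ √X * √Y + (√X + √Y + 1) * δ := by nlinarith
  linarith

end

end Vale.Agent.P141.H103
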