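import Vale.Agent.P141.H103.PlaneW

/-!
# The plane step for families whose outer increments are paid by a potential
-/

namespace Vale.Agent.P141.H103

open Finset Matrix Vale.Agent.P141.PL Vale.Agent.P141.PL.H103

noncomputable section

variable {ι : Type*} [Fintype ι]

/-! ### One middle index -/

/-- potential energy of the outer scale `a` -/
def eP (N : ℕ) (R : ℤ) (φ : ℕ → ℤ → ℝ) (a : ℕ) : ℝ :=
  (2 : ℝ) ^ a * ∑ n ∈ iv (N - a) R, φ a n

/-- the outer increments of the family `P` are paid by the potential `φ` -/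
def Pot (N k : ℕ) (P : ℕ → ℤ → Matrix ι ι ℝ) (φ : ℕ → ℤ → ℝ) : Prop :=
  (∀ a, k ≤ a → a < N → ∀ n,
    ((P a (2 * n) - P (a + 1) n) * (P a (2 * n) - P (a + 1) n)).trace
      + ((P a (2 * n + 1) - P (a + 1) n) * (P a (2 * n + 1) - P (a + 1) n)).trace
      ≤ φ a (2 * n) + φ a (2 * n + 1) - 2 * φ (a + 1) n) ∧
  ∀ n, (P N n * P N n).trace ≤ φ N n

/-- one level of the multiscale energy -/
theorem level_leP {N k : ℕ} {R : ℤ} {P : ℕ → ℤ → Matrix ι ι ℝ} {φ : ℕ → ℤ → ℝ}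
    (hO : Pot N k P φ) {r : ℕ} (hr : k + r < N) :
    2 ^ k * ∑' n, ((fW N k R P r n - fW N k R P (r + 1) n)
        * (fW N k R P r n - fW N k R P (r + 1) n)).trace
      ≤ eP N R φ (k + r) - eP N R φ (k + r + 1) := by
  have h1 : ∑' n, ((fW N k R P r n - fW N k R P (r + 1) n)
        * (fW N k R P r n - fW N k R P (r + 1) n)).trace
      = ∑ n ∈ iv (N - k) R,
        ((P (k + r) (n / 2 ^ r) - P (k + r + 1) (n / 2 ^ r / 2))
        * (P (k + r) (n / 2 ^ r) - P (k + r + 1) (n / 2 ^ r / 2))).trace := by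
    rw [tsum_eq_sum (s := iv (N - k) R)]
    · refine Finset.sum_congr rfl fun n hn => ?_
      unfold fW
      rw [if_pos hn, if_pos hn]
      have : n / 2 ^ (r + 1) = n / 2 ^ r / 2 := by
        rw [pow_succ, ← Int.ediv_ediv_of_nonneg (by positivity)]
      rw [this]
      rfl
    · intro n hn
      unfold fW
      rw [if_neg hn, if_neg hn, sub_zero, Matrix.mul_zero, trace_zero]
  obtain ⟨l, hl⟩ : ∃ l, N - k = (l + 1) + r := ⟨N - k - r - 1, by omega⟩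
  have hl1 : N - (k + r) = l + 1 := by omega
  have hl2 : N - (k + r + 1) = l := by omega
  unfold eP
  rw [h1, hl, hl1, hl2]
  rw [sum_iv_div (l + 1) r R (fun n =>
      ((P (k + r) n - P (k + r + 1) (n / 2)) * (P (k + r) n - P (k + r + 1) (n / 2))).trace)]
  rw [sum_iv_pair, sum_iv_pair l R (fun n => φ (k + r) n)]
  have h2 : ∀ n : ℤ, 2 * n / 2 = n := fun n => by omega
  have h3 : ∀ n : ℤ, (2 * n + 1) / 2 = n := fun n => by omega
  simp only [h2, h3]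
  have key : ∑ n ∈ iv l R,
      (((P (k + r) (2 * n) - P (k + r + 1) n) * (P (k + r) (2 * n) - P (k + r + 1) n)).trace
      + ((P (k + r) (2 * n + 1) - P (k + r + 1) n)
        * (P (k + r) (2 * n + 1) - P (k + r + 1) n)).trace)
      ≤ ∑ n ∈ iv l R, (φ (k + r) (2 * n) + φ (k + r) (2 * n + 1) - 2 * φ (k + r + 1) n) :=
    Finset.sum_le_sum fun n _ => hO.1 (k + r) (by omega) hr n
  have key2 := mul_le_mul_of_nonneg_left key (show (0 : ℝ) ≤ 2 ^ k * 2 ^ r by positivity)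
  rw [← mul_assoc]
  refine key2.trans (le_of_eq ?_)
  rw [Finset.sum_sub_distrib, ← Finset.mul_sum, pow_succ, pow_add]
  ring

theorem last_leP {N k : ℕ} (hk : k ≤ N) {R : ℤ} {P : ℕ → ℤ → Matrix ι ι ℝ} {φ : ℕ → ℤ → ℝ}
    (hO : Pot N k P φ) :
    2 ^ k * ∑' n, (fW N k R P (N - k) n * fW N k R P (N - k) n).trace ≤ eP N R φ N := by
  rw [last_eq hk]
  unfold eW eP
  exact mul_le_mul_of_nonneg_left (Finset.sum_le_sum fun n _ => hO.2 n) (by positivity)

theorem MM_leP {N k : ℕ} (hk : k ≤ N) {R : ℤ} {P : ℕ → ℤ → Matrix ι ι ℝ} {φ : ℕ → ℤ → ℝ}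
    (hO : Pot N k P φ) :
    2 ^ k * MM (N - k) (fW N k R P) ≤ SEW N k (eP N R φ) := by
  unfold MM SEW
  rw [mul_add, Finset.mul_sum, mul_left_comm (2 ^ k) ((3 / 4) ^ (N - k))]
  refine add_le_add (Finset.sum_le_sum fun r hr => ?_)
    (mul_le_mul_of_nonneg_left (last_leP hk hO) (by positivity))
  rw [mul_left_comm]
  exact mul_le_mul_of_nonneg_left
    (level_leP hO (by have := Finset.mem_range.1 hr; omega)) (by positivity)

/-- **Shift by one plane**, one middle index. -/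
theorem shiftP1 {N k : ℕ} (hk : k ≤ N) {R T : ℤ} {P Q : ℕ → ℤ → Matrix ι ι ℝ} {φ ψ : ℕ → ℤ → ℝ}
    (hP : Pot N k P φ) (hQ : Pot N k Q ψ) (sP : ∀ a n, (P a n)ᵀ = P a n)
    (sQ : ∀ a n, (Q a n)ᵀ = Q a n) (s : ℤ) :
    2 ^ k * |alW N R T k (P k) (Q k) (s + 1) - alW N R T k (P k) (Q k) s|
      ≤ 4 * (SEW N k (eP N R φ) + SEW N k (eP N T ψ)) := by
  have h := first_diff_mat (N - k) (f := fW N k R P) (g := fW N k T Q)
    (fun r hr n => fW_blk N k R P hr n) (fun r hr n => fW_blk N k T Q hr n)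
    (fun r _ n => fW_symm sP r n) (fun r _ n => fW_symm sQ r n)
    (fun r _ => fW_fs ..) (fun r _ => fW_fs ..) s
  rw [cv_eq_alW, cv_eq_alW] at h
  have h2 := mul_le_mul_of_nonneg_left h (show (0 : ℝ) ≤ 2 ^ k by positivity)
  have h3 := MM_leP hk (R := R) hP
  have h4 := MM_leP hk (R := T) hQ
  refine h2.trans ?_
  calc 2 ^ k * (4 * (MM (N - k) (fW N k R P) + MM (N - k) (fW N k T Q)))
      = 4 * (2 ^ k * MM (N - k) (fW N k R P) + 2 ^ k * MM (N - k) (fW N k T Q)) := by ring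
    _ ≤ _ := by linarith

/-- **Shift**, one middle index: `|t' - t| ≤ D`. -/
theorem shiftP {N k : ℕ} (hk : k ≤ N) {R T : ℤ} {P Q : ℕ → ℤ → Matrix ι ι ℝ} {φ ψ : ℕ → ℤ → ℝ}
    (hP : Pot N k P φ) (hQ : Pot N k Q ψ) (sP : ∀ a n, (P a n)ᵀ = P a n)
    (sQ : ∀ a n, (Q a n)ᵀ = Q a n) {t t' : ℤ} {D : ℕ} (hD : |t' - t| ≤ D) :
    2 ^ k * |alW N R T k (P k) (Q k) t' - alW N R T k (P k) (Q k) t|
      ≤ 4 * D * (SEW N k (eP N R φ) + SEW N k (eP N T ψ)) := by
  set E := SEW N k (eP N R φ) + SEW N k (eP N T ψ) with hE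
  have key : ∀ (d : ℕ) (u : ℤ), 2 ^ k * |alW N R T k (P k) (Q k) (u + d)
      - alW N R T k (P k) (Q k) u| ≤ 4 * d * E := by
    intro d
    induction d with
    | zero => intro u; simp
    | succ d ih =>
      intro u
      have h1 := shiftP1 hk (R := R) (T := T) hP hQ sP sQ (u + d)
      rw [← hE] at h1
      have h2 := ih u
      have h3 := abs_sub_le (alW N R T k (P k) (Q k) (u + ((d + 1 : ℕ) : ℤ)))
        (alW N R T k (P k) (Q k) (u + d)) (alW N R T k (P k) (Q k) u)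
      have e : u + ((d + 1 : ℕ) : ℤ) = u + d + 1 := by push_cast; ring
      rw [e] at h3 ⊢
      have h4 := mul_le_mul_of_nonneg_left h3 (show (0 : ℝ) ≤ 2 ^ k by positivity)
      push_cast
      linarith
  have hE0 : 0 ≤ E := by
    have h := key 1 0
    have h2 : 0 ≤ (2 : ℝ) ^ k * |alW N R T k (P k) (Q k) (0 + ((1 : ℕ) : ℤ))
      - alW N R T k (P k) (Q k) 0| := by positivity
    push_cast at h
    push_cast at h2
    linarith
  have hD' := abs_le.1 hD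
  rcases le_total t t' with h | h
  · obtain ⟨d, hd⟩ : ∃ d : ℕ, t' = t + d := ⟨(t' - t).toNat, by omega⟩
    have h1 := key d t
    rw [← hd] at h1
    have hdD : (d : ℝ) ≤ D := by
      have : d ≤ D := by omega
      exact_mod_cast this
    have := mul_le_mul_of_nonneg_right hdD hE0
    linarith
  · obtain ⟨d, hd⟩ : ∃ d : ℕ, t = t' + d := ⟨(t - t').toNat, by omega⟩
    have h1 := key d t'
    rw [← hd, abs_sub_comm] at h1
    have hdD : (d : ℝ) ≤ D := by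
      have : d ≤ D := by omega
      exact_mod_cast this
    have := mul_le_mul_of_nonneg_right hdD hE0
    linarith

/-- mean of the two outer children -/
def avO1 (P : ℕ → ℤ → Matrix ι ι ℝ) (k : ℕ) (n : ℤ) : Matrix ι ι ℝ :=
  (1 / 2 : ℝ) • (P k (2 * n) + P k (2 * n + 1))

/-- the mean is the best constant -/
theorem mean_min {X Y Z : Matrix ι ι ℝ} (hX : Xᵀ = X) (hY : Yᵀ = Y) (hZ : Zᵀ = Z) :
    (X * X).trace + (Y * Y).trace - 2 * (((1 / 2 : ℝ) • (X + Y)) * ((1 / 2 : ℝ) • (X + Y))).trace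
      ≤ ((X - Z) * (X - Z)).trace + ((Y - Z) * (Y - Z)).trace := by
  have h := P075.trace_sq_nonneg (B := (1 / 2 : ℝ) • (X + Y) - Z)
    (by simp only [transpose_sub, transpose_smul, transpose_add, hX, hY, hZ])
  have c1 := trace_mul_comm Y X
  have c2 := trace_mul_comm Z X
  have c3 := trace_mul_comm Z Y
  simp only [Matrix.sub_mul, Matrix.mul_sub, Matrix.smul_mul, Matrix.mul_smul, Matrix.add_mul,
    Matrix.mul_add, trace_sub, trace_add, trace_smul, smul_eq_mul] at h ⊢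
  rw [c1, c2, c3] at h
  rw [c1, c2, c3]
  linarith

/-- outer split on a plane, one middle index -/
theorem outer_splitP {N k : ℕ} (h : k < N) {R T : ℤ} {P Q : ℕ → ℤ → Matrix ι ι ℝ}
    {φ ψ : ℕ → ℤ → ℝ} (hP : Pot N k P φ) (hQ : Pot N k Q ψ) (sP : ∀ a n, (P a n)ᵀ = P a n)
    (sQ : ∀ a n, (Q a n)ᵀ = Q a n) (s : ℤ) :
    2 ^ (k + 1) * ∑ n ∈ iv (N - (k + 1)) R, (if s - n ∈ iv (N - (k + 1)) T then
      (avO1 P k n * avO1 Q k (s - n)).trace else 0)
      ≤ 2 ^ k * alW N R T k (P k) (Q k) (2 * s + 1)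
        + (1 / 2) * (eP N R φ k - eP N R φ (k + 1))
        + (1 / 2) * (eP N T ψ k - eP N T ψ (k + 1)) := by
  set dP : ℤ → ℝ := fun n => φ k (2 * n) + φ k (2 * n + 1) - 2 * φ (k + 1) n with hdP
  set dQ : ℤ → ℝ := fun n => ψ k (2 * n) + ψ k (2 * n + 1) - 2 * ψ (k + 1) n with hdQ
  have nn : ∀ (P : ℕ → ℤ → Matrix ι ι ℝ) (φ : ℕ → ℤ → ℝ), Pot N k P φ →
      (∀ a n, (P a n)ᵀ = P a n) → ∀ n,
      (P k (2 * n) * P k (2 * n)).trace + (P k (2 * n + 1) * P k (2 * n + 1)).trace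
        - 2 * (avO1 P k n * avO1 P k n).trace ≤ φ k (2 * n) + φ k (2 * n + 1) - 2 * φ (k + 1) n
      ∧ 0 ≤ φ k (2 * n) + φ k (2 * n + 1) - 2 * φ (k + 1) n := by
    intro P φ hP sP n
    have q := hP.1 k le_rfl h n
    refine ⟨(mean_min (sP _ _) (sP _ _) (sP (k + 1) n)).trans q, le_trans ?_ q⟩
    refine add_nonneg (P075.trace_sq_nonneg ?_) (P075.trace_sq_nonneg ?_) <;>
    simp only [transpose_sub, sP]
  have hP0 : ∀ n, 0 ≤ dP n := fun n => (nn P φ hP sP n).2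
  have hQ0 : ∀ n, 0 ≤ dQ n := fun n => (nn Q ψ hQ sQ n).2
  have hpt : ∀ n n', (avO1 P k n * avO1 Q k n').trace
      ≤ (1 / 2) * ((P k (2 * n) * Q k (2 * n' + 1)).trace + (P k (2 * n + 1) * Q k (2 * n')).trace)
        + (1 / 4) * dP n + (1 / 4) * dQ n' := by
    intro n n'
    have q1 := (nn P φ hP sP n).1
    have q2 := (nn Q ψ hQ sQ n').1
    have q3 := opp_pt (sP k (2 * n)) (sP k (2 * n + 1)) (sQ k (2 * n')) (sQ k (2 * n' + 1))
    simp only [hdP, hdQ]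
    simp only [avO1] at q1 q2 ⊢
    linarith
  have e : N - k = (N - (k + 1)) + 1 := by omega
  have herr : ∀ (R : ℤ) (φ : ℕ → ℤ → ℝ), 2 ^ (k + 1) * ((1 / 4) *
      ∑ n ∈ iv (N - (k + 1)) R, (φ k (2 * n) + φ k (2 * n + 1) - 2 * φ (k + 1) n))
      = (1 / 2) * (eP N R φ k - eP N R φ (k + 1)) := by
    intro R φ
    unfold eP
    rw [e, sum_iv_pair, Finset.sum_sub_distrib, ← Finset.mul_sum, pow_succ]
    ring
  have hsum : ∑ n ∈ iv (N - (k + 1)) R, (if s - n ∈ iv (N - (k + 1)) T then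
      (avO1 P k n * avO1 Q k (s - n)).trace else 0)
      ≤ (1 / 2) * alW N R T k (P k) (Q k) (2 * s + 1)
        + (1 / 4) * ∑ n ∈ iv (N - (k + 1)) R, dP n + (1 / 4) * ∑ n ∈ iv (N - (k + 1)) T, dQ n := by
    have h5 := H588.sum_refl_le (N - (k + 1)) R T s dQ hQ0
    have h6 := mul_le_mul_of_nonneg_left h5 (by norm_num : (0 : ℝ) ≤ 1 / 4)
    refine le_trans ?_ (add_le_add_right h6 _)
    rw [← alW_split h, Finset.mul_sum, Finset.mul_sum, Finset.mul_sum, ← Finset.sum_add_distrib,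
      ← Finset.sum_add_distrib]
    refine Finset.sum_le_sum fun n _ => ?_
    split_ifs with hc
    · exact hpt n (s - n)
    · have := hP0 n
      simp only [mul_zero, zero_add, add_zero]
      positivity
  have h7 := mul_le_mul_of_nonneg_left hsum (show (0 : ℝ) ≤ 2 ^ (k + 1) by positivity)
  refine h7.trans (le_of_eq ?_)
  rw [mul_add, mul_add, herr R φ, herr T ψ, pow_succ]
  ring

theorem eP_anti {N k : ℕ} {R : ℤ} {P : ℕ → ℤ → Matrix ι ι ℝ} {φ : ℕ → ℤ → ℝ}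
    (hO : Pot N k P φ) (sP : ∀ a n, (P a n)ᵀ = P a n) {a : ℕ} (ha : k ≤ a) (haN : a < N) :
    eP N R φ (a + 1) ≤ eP N R φ a := by
  obtain ⟨r, rfl⟩ := Nat.exists_eq_add_of_le ha
  have h := level_leP (R := R) hO haN
  have h2 : 0 ≤ (2 : ℝ) ^ k * ∑' n, ((fW N k R P r n - fW N k R P (r + 1) n)
        * (fW N k R P r n - fW N k R P (r + 1) n)).trace := by
    refine mul_nonneg (by positivity) (tsum_nonneg fun n => P075.trace_sq_nonneg ?_)
    rw [transpose_sub, fW_symm sP, fW_symm sP]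
  linarith

theorem eP_nonneg {N k : ℕ} {R : ℤ} {P : ℕ → ℤ → Matrix ι ι ℝ} {φ : ℕ → ℤ → ℝ}
    (hO : Pot N k P φ) (sP : ∀ a n, (P a n)ᵀ = P a n) : 0 ≤ eP N R φ N :=
  mul_nonneg (by positivity) (Finset.sum_nonneg fun n _ =>
    (P075.trace_sq_nonneg (sP N n)).trans (hO.2 n))

/-! ### All middle indices -/

variable {κ : Type*} [Fintype κ]

/-- potential energy: middle scale `k`, outer scale `a` -/
def EP (N : ℕ) (R S : ℤ) (k : ℕ) (φ : ℕ → ℤ → ℤ → ℝ) (a : ℕ) : ℝ :=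
  (2 : ℝ) ^ a * 2 ^ k * ∑ m ∈ iv (N - k) S, ∑ n ∈ iv (N - a) R, φ a n m

/-- outer increments paid by a potential, for every middle index -/
def PotM (N k : ℕ) (P : ℕ → ℤ → ℤ → Matrix ι ι ℝ) (φ : ℕ → ℤ → ℤ → ℝ) : Prop :=
  (∀ a, k ≤ a → a < N → ∀ n m,
    ((P a (2 * n) m - P (a + 1) n m) * (P a (2 * n) m - P (a + 1) n m)).trace
      + ((P a (2 * n + 1) m - P (a + 1) n m) * (P a (2 * n + 1) m - P (a + 1) n m)).trace
      ≤ φ a (2 * n) m + φ a (2 * n + 1) m - 2 * φ (a + 1) n m) ∧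
  ∀ n m, (P N n m * P N n m).trace ≤ φ N n m

theorem PotM.pt {N k : ℕ} {P : ℕ → ℤ → ℤ → Matrix ι ι ℝ} {φ : ℕ → ℤ → ℤ → ℝ}
    (h : PotM N k P φ) (m : ℤ) : Pot N k (fun a n => P a n m) (fun a n => φ a n m) :=
  ⟨fun a h1 h2 n => h.1 a h1 h2 n m, fun n => h.2 n m⟩

/-- exact outer averages have the potential `tr P²` -/
theorem OutM.pot {N k : ℕ} {P : ℕ → ℤ → ℤ → Matrix ι ι ℝ} (hO : OutM N k P) :
    PotM N k P (fun a n m => (P a n m * P a n m).trace) := by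
  refine ⟨fun a h1 h2 n m => ?_, fun n m => le_rfl⟩
  simp only
  rw [hO a h1 h2 n m]
  exact (mean_dist _ _).le

/-- mean of the two outer children -/
def avO (P : ℕ → ℤ → ℤ → Matrix ι ι ℝ) (k : ℕ) (n m : ℤ) : Matrix ι ι ℝ :=
  (1 / 2 : ℝ) • (P k (2 * n) m + P k (2 * n + 1) m)

omit [Fintype ι] in
theorem OutM.avO {N k : ℕ} {P : ℕ → ℤ → ℤ → Matrix ι ι ℝ} (hO : OutM N k P) (h : k < N)
    (n m : ℤ) : H103.avO P k n m = P (k + 1) n m := (hO k le_rfl h n m).symm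

theorem EP_eq (N : ℕ) (R S : ℤ) (k : ℕ) (φ : ℕ → ℤ → ℤ → ℝ) (a : ℕ) :
    EP N R S k φ a = 2 ^ k * ∑ m ∈ iv (N - k) S, eP N R (fun a n => φ a n m) a := by
  unfold EP eP
  rw [← Finset.mul_sum]
  ring

theorem EW_eq_EP (N : ℕ) (R S : ℤ) (k : ℕ) (P : ℕ → ℤ → ℤ → Matrix ι ι ℝ) (a : ℕ) :
    EW N R S k P a = EP N R S k (fun a n m => (P a n m * P a n m).trace) a := rfl

theorem SEW_EP (N : ℕ) (R S : ℤ) (k : ℕ) (φ : ℕ → ℤ → ℤ → ℝ) :
    SEW N k (EP N R S k φ)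
      = 2 ^ k * ∑ m ∈ iv (N - k) S, SEW N k (eP N R (fun a n => φ a n m)) := by
  unfold SEW
  simp only [EP_eq]
  rw [Finset.sum_add_distrib, mul_add, ← Finset.mul_sum, Finset.sum_comm]
  congr 1
  · rw [Finset.mul_sum]
    refine Finset.sum_congr rfl fun r _ => ?_
    rw [← Finset.mul_sum, Finset.sum_sub_distrib]
    ring
  · ring

theorem EP_anti {N k : ℕ} {R S : ℤ} {P : ℕ → ℤ → ℤ → Matrix ι ι ℝ} {φ : ℕ → ℤ → ℤ → ℝ}
    (hO : PotM N k P φ) (sP : ∀ a n m, (P a n m)ᵀ = P a n m) {a : ℕ} (ha : k ≤ a)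
    (haN : a < N) : EP N R S k φ (a + 1) ≤ EP N R S k φ a := by
  rw [EP_eq, EP_eq]
  refine mul_le_mul_of_nonneg_left (Finset.sum_le_sum fun m _ => ?_) (by positivity)
  exact eP_anti (hO.pt m) (fun a n => sP a n m) ha haN

theorem EP_anti' {N k : ℕ} {R S : ℤ} {P : ℕ → ℤ → ℤ → Matrix ι ι ℝ} {φ : ℕ → ℤ → ℤ → ℝ}
    (hO : PotM N k P φ) (sP : ∀ a n m, (P a n m)ᵀ = P a n m) {a : ℕ} (ha : k ≤ a)
    (haN : a ≤ N) : EP N R S k φ a ≤ EP N R S k φ k := by
  induction a, ha using Nat.le_induction with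
  | base => exact le_rfl
  | succ a ha ih => exact (EP_anti hO sP ha (by omega)).trans (ih (by omega))

theorem EP_nonneg {N k : ℕ} {R S : ℤ} {P : ℕ → ℤ → ℤ → Matrix ι ι ℝ} {φ : ℕ → ℤ → ℤ → ℝ}
    (hO : PotM N k P φ) (sP : ∀ a n m, (P a n m)ᵀ = P a n m) : 0 ≤ EP N R S k φ N :=
  mul_nonneg (by positivity) (Finset.sum_nonneg fun m _ => Finset.sum_nonneg fun n _ =>
    (P075.trace_sq_nonneg (sP N n m)).trans (hO.2 n m))

theorem EP_nonneg' {N k a : ℕ} {R S : ℤ} {P : ℕ → ℤ → ℤ → Matrix ι ι ℝ} {φ : ℕ → ℤ → ℤ → ℝ}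
    (hO : PotM N k P φ) (sP : ∀ a n m, (P a n m)ᵀ = P a n m) (ha : k ≤ a) (haN : a ≤ N) :
    0 ≤ EP N R S k φ a := by
  refine (EP_nonneg (R := R) (S := S) hO sP).trans ?_
  have key : ∀ b, a ≤ b → b ≤ N → EP N R S k φ b ≤ EP N R S k φ a := by
    intro b hb
    induction b, hb using Nat.le_induction with
    | base => intro _; exact le_rfl
    | succ b hb ih => intro hbN; exact (EP_anti hO sP (ha.trans hb) (by omega)).trans (ih (by omega))
  exact key N haN le_rfl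

theorem EW_le_EP {N k a : ℕ} {R S : ℤ} {P : ℕ → ℤ → ℤ → Matrix ι ι ℝ} {φ : ℕ → ℤ → ℤ → ℝ}
    (h : ∀ n m, (P a n m * P a n m).trace ≤ φ a n m) : EW N R S k P a ≤ EP N R S k φ a :=
  mul_le_mul_of_nonneg_left (Finset.sum_le_sum fun m _ => Finset.sum_le_sum fun n _ => h n m)
    (by positivity)

/-- **The step.** The defects of the means sit in `g`. -/
theorem stepP {N k : ℕ} (h : k < N) {R S T : ℤ} {c : ℕ → ℤ} (hc : H588.Pl c)
    {P Q : ℕ → ℤ → ℤ → Matrix ι ι ℝ} {φ ψ : ℕ → ℤ → ℤ → ℝ} {pu qu : ℤ → ℤ → Matrix κ κ ℝ}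
    {g : ℤ → ℤ → ℤ → ℝ}
    (hP : PotM N k P φ) (hQ : PotM N k Q ψ) (sP : ∀ a n m, (P a n m)ᵀ = P a n m)
    (sQ : ∀ a n m, (Q a n m)ᵀ = Q a n m)
    (mid : ∀ n n' m, (pu n m * qu n' m).trace + g n n' m
      ≤ (1 / 2) * ((avO P k n (2 * m) * avO Q k n' (2 * m)).trace
        + (avO P k n (2 * m + 1) * avO Q k n' (2 * m + 1)).trace)) :
    MW N R S T (k + 1) (c (k + 1)) pu qu + GW N R S T (k + 1) (c (k + 1)) g
      ≤ MW N R S T k (c k) (P k) (Q k)
        + 9 * (SEW N k (EP N R S k φ) + SEW N k (EP N T S k ψ)) := by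
  have e : N - k = (N - (k + 1)) + 1 := by omega
  -- the middle split
  have h1 : MW N R S T (k + 1) (c (k + 1)) pu qu + GW N R S T (k + 1) (c (k + 1)) g
      ≤ 2 ^ k * ∑ m ∈ iv (N - k) S, (2 ^ (k + 1) * ∑ n ∈ iv (N - (k + 1)) R,
        (if c (k + 1) - m / 2 - n ∈ iv (N - (k + 1)) T then
          (avO P k n m * avO Q k (c (k + 1) - m / 2 - n) m).trace else 0)) := by
    rw [e, H588.sum_iv_succ]
    unfold MW GW
    rw [← mul_add, ← Finset.sum_add_distrib]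
    have h4 : (4 : ℝ) ^ (k + 1) = 2 ^ k * (2 * 2 ^ (k + 1)) := by
      rw [show (4 : ℝ) = 2 * 2 by norm_num, mul_pow, pow_succ]; ring
    rw [h4, mul_assoc]
    refine mul_le_mul_of_nonneg_left ?_ (by positivity)
    rw [Finset.mul_sum]
    refine Finset.sum_le_sum fun m _ => ?_
    have e1 : 2 * m / 2 = m := by omega
    have e2 : (2 * m + 1) / 2 = m := by omega
    rw [e1, e2, ← mul_add, mul_comm (2 : ℝ) (2 ^ (k + 1)), mul_assoc]
    refine mul_le_mul_of_nonneg_left ?_ (by positivity)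
    rw [← Finset.sum_add_distrib, ← Finset.sum_add_distrib, Finset.mul_sum]
    refine Finset.sum_le_sum fun n _ => ?_
    split_ifs with hcc
    · have := mid n (c (k + 1) - m - n) m
      linarith
    · simp
  refine h1.trans ?_
  -- the outer split and the shift
  have h2 : ∀ m, 2 ^ (k + 1) * ∑ n ∈ iv (N - (k + 1)) R,
        (if c (k + 1) - m / 2 - n ∈ iv (N - (k + 1)) T then
          (avO P k n m * avO Q k (c (k + 1) - m / 2 - n) m).trace else 0)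
      ≤ 2 ^ k * alW N R T k (fun n => P k n m) (fun n => Q k n m) (c k - m)
        + 9 * (SEW N k (eP N R (fun a n => φ a n m)) + SEW N k (eP N T (fun a n => ψ a n m))) := by
    intro m
    have oP := hP.pt m
    have oQ := hQ.pt m
    have yP : ∀ a n, ((fun a n => P a n m) a n)ᵀ = (fun a n => P a n m) a n := fun a n => sP a n m
    have yQ : ∀ a n, ((fun a n => Q a n m) a n)ᵀ = (fun a n => Q a n m) a n := fun a n => sQ a n m
    have q1 := outer_splitP h (R := R) (T := T) oP oQ yP yQ (c (k + 1) - m / 2)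
    have q2 := shiftP h.le (R := R) (T := T) oP oQ yP yQ (t := c k - m)
      (t' := 2 * (c (k + 1) - m / 2) + 1) (D := 2) (by
        have := hc k
        rw [abs_le]
        push_cast
        constructor <;> omega)
    have q3 := first_le_SEW h (e := eP N R (fun a n => φ a n m))
      (fun a h1 h2 => eP_anti oP yP h1 h2) (eP_nonneg oP yP)
    have q4 := first_le_SEW h (e := eP N T (fun a n => ψ a n m))
      (fun a h1 h2 => eP_anti oQ yQ h1 h2) (eP_nonneg oQ yQ)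
    have q5 : (2 : ℝ) ^ k * (alW N R T k (fun n => P k n m) (fun n => Q k n m)
          (2 * (c (k + 1) - m / 2) + 1) - alW N R T k (fun n => P k n m) (fun n => Q k n m)
          (c k - m)) ≤ 2 ^ k * |alW N R T k (fun n => P k n m) (fun n => Q k n m)
          (2 * (c (k + 1) - m / 2) + 1) - alW N R T k (fun n => P k n m) (fun n => Q k n m)
          (c k - m)| := mul_le_mul_of_nonneg_left (le_abs_self _) (by positivity)
    have p3 : 0 ≤ eP N R (fun a n => φ a n m) k - eP N R (fun a n => φ a n m) (k + 1) := by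
      have := eP_anti (R := R) oP yP le_rfl h
      linarith
    have p4 : 0 ≤ eP N T (fun a n => ψ a n m) k - eP N T (fun a n => ψ a n m) (k + 1) := by
      have := eP_anti (R := T) oQ yQ le_rfl h
      linarith
    push_cast at q2
    simp only [avO1] at q1
    simp only [avO]
    linarith
  refine (mul_le_mul_of_nonneg_left (Finset.sum_le_sum fun m _ => h2 m) (by positivity)).trans
    (le_of_eq ?_)
  rw [SEW_EP, SEW_EP, Finset.sum_add_distrib, ← Finset.mul_sum, ← Finset.mul_sum,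
    Finset.sum_add_distrib, MW]
  have h4 : (4 : ℝ) ^ k = 2 ^ k * 2 ^ k := by rw [← mul_pow]; norm_num
  rw [h4]
  unfold alW
  ring

/-- **The sum of the gains over all scales, with potentials.** `P k`, `Q k` : families at middle
scale `k` of the functions of time `k`, `φ k`, `ψ k` their potentials; `P' k`, `Q' k`, `φ' k`,
`ψ' k` : of the functions of time `k + 1`; `g k` : gain minus defect of the step `k + 1 → k`
(defects of the means included); `dE k a`, `dF k a` : defects of the potential energies; `x k` :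
changes. -/
theorem totalP {k₀ N : ℕ} (hkN : k₀ ≤ N) {R S T : ℤ} {c : ℕ → ℤ} (hc : H588.Pl c)
    {ι : ℕ → Type*} [∀ k, Fintype (ι k)]
    {P P' Q Q' : ∀ k, ℕ → ℤ → ℤ → Matrix (ι k) (ι k) ℝ} {φ φ' ψ ψ' : ℕ → ℕ → ℤ → ℤ → ℝ}
    {g : ℕ → ℤ → ℤ → ℤ → ℝ} {dE dF : ℕ → ℕ → ℝ} {x : ℕ → ℝ}
    (oP : PotM N k₀ (P k₀) (φ k₀)) (oQ : PotM N k₀ (Q k₀) (ψ k₀))
    (oP' : ∀ k, k₀ ≤ k → k < N → PotM N k (P' k) (φ' k))
    (oQ' : ∀ k, k₀ ≤ k → k < N → PotM N k (Q' k) (ψ' k))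
    (bP : ∀ k, k₀ ≤ k → k ≤ N → ∀ n m, (P k k n m * P k k n m).trace ≤ φ k k n m)
    (bQ : ∀ k, k₀ ≤ k → k ≤ N → ∀ n m, (Q k k n m * Q k k n m).trace ≤ ψ k k n m)
    (sP : ∀ k a n m, (P k a n m)ᵀ = P k a n m) (sQ : ∀ k a n m, (Q k a n m)ᵀ = Q k a n m)
    (sP' : ∀ k a n m, (P' k a n m)ᵀ = P' k a n m) (sQ' : ∀ k a n m, (Q' k a n m)ᵀ = Q' k a n m)
    (mid : ∀ k, k₀ ≤ k → k < N → ∀ n n' m,
      (P (k + 1) (k + 1) n m * Q (k + 1) (k + 1) n' m).trace + g k n n' m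
      ≤ (1 / 2) * ((avO (P' k) k n (2 * m) * avO (Q' k) k n' (2 * m)).trace
        + (avO (P' k) k n (2 * m + 1) * avO (Q' k) k n' (2 * m + 1)).trace))
    (hE : ∀ k, k₀ ≤ k → k < N → ∀ a, k + 1 ≤ a → a ≤ N →
      EP N R S (k + 1) (φ (k + 1)) a ≤ EP N R S k (φ' k) a + dE k a)
    (hF : ∀ k, k₀ ≤ k → k < N → ∀ a, k + 1 ≤ a → a ≤ N →
      EP N T S (k + 1) (ψ (k + 1)) a ≤ EP N T S k (ψ' k) a + dF k a)
    (hx : ∀ k, k₀ ≤ k → k < N → MW N R S T k (c k) (P' k k) (Q' k k)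
      + 9 * (WW N k (EP N R S k (φ' k)) + WW N k (EP N T S k (ψ' k)))
      ≤ MW N R S T k (c k) (P k k) (Q k k)
      + 9 * (WW N k (EP N R S k (φ k)) + WW N k (EP N T S k (ψ k))) + x k) :
    ∑ k ∈ Ico k₀ N, GW N R S T (k + 1) (c (k + 1)) (g k)
      ≤ 37 * (EP N R S k₀ (φ k₀) k₀ + EP N T S k₀ (ψ k₀) k₀) + ∑ k ∈ Ico k₀ N, x k
        + 9 * ∑ k ∈ Ico k₀ N, (WW N (k + 1) (dE k) + WW N (k + 1) (dF k)) := by
  have h := telW hkN (M := fun k => MW N R S T k (c k) (P k k) (Q k k))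
    (M' := fun k => MW N R S T k (c k) (P' k k) (Q' k k))
    (g := fun k => GW N R S T k (c k) (g (k - 1))) (x := x)
    (E := fun k => EP N R S k (φ k)) (E' := fun k => EP N R S k (φ' k))
    (F := fun k => EP N T S k (ψ k)) (F' := fun k => EP N T S k (ψ' k)) (dE := dE) (dF := dF)
    (fun k h1 h2 => by
      simp only [Nat.add_sub_cancel]
      exact stepP h2 hc (oP' k h1 h2) (oQ' k h1 h2) (sP' k) (sQ' k) (mid k h1 h2))
    hE hF hx
  simp only [Nat.add_sub_cancel] at h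
  have WN : ∀ e : ℕ → ℝ, WW N N e = e N := by
    intro e
    unfold WW
    simp
  rw [WN, WN] at h
  have q1 := abs_le.1 (abs_MW_le N R S T N (c N) (sP N) (sQ N))
  have q2 := EW_le_EP (N := N) (k := N) (R := R) (S := S) (bP N hkN le_rfl)
  have q3 := EW_le_EP (N := N) (k := N) (R := T) (S := S) (bQ N hkN le_rfl)
  have q4 := EW_nonneg (N := N) (R := R) (S := S) (k := N) (sP N) N
  have q5 := EW_nonneg (N := N) (R := T) (S := S) (k := N) (sQ N) N
  have p1 := abs_le.1 (abs_MW_le N R S T k₀ (c k₀) (sP k₀) (sQ k₀))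
  have p4 := EW_le_EP (N := N) (k := k₀) (R := R) (S := S) (bP k₀ le_rfl hkN)
  have p5 := EW_le_EP (N := N) (k := k₀) (R := T) (S := S) (bQ k₀ le_rfl hkN)
  have r4 := EW_nonneg (N := N) (R := R) (S := S) (k := k₀) (sP k₀) k₀
  have r5 := EW_nonneg (N := N) (R := T) (S := S) (k := k₀) (sQ k₀) k₀
  have p2 := WW_le (N := N) (k := k₀) (e := EP N R S k₀ (φ k₀)) (r4.trans p4)
    fun a h1 h2 => EP_anti' oP (sP k₀) h1 h2
  have p3 := WW_le (N := N) (k := k₀) (e := EP N T S k₀ (ψ k₀)) (r5.trans p5)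
    fun a h1 h2 => EP_anti' oQ (sQ k₀) h1 h2
  linarith

/-! ### The increments are summable -/

/-- the increments which pay for the shifts are themselves summable -/
theorem sum_SEW_le {k₀ N : ℕ} (hkN : k₀ ≤ N) {E E' dE : ℕ → ℕ → ℝ} {y : ℕ → ℝ}
    (h2 : ∀ k, k₀ ≤ k → k < N → ∀ a, k + 1 ≤ a → a ≤ N → E (k + 1) a ≤ E' k a + dE k a)
    (h4 : ∀ k, k₀ ≤ k → k < N → WW N k (E' k) ≤ WW N k (E k) + y k) :
    ∑ k ∈ Ico k₀ N, SEW N k (E' k) + WW N N (E N)
      ≤ WW N k₀ (E k₀) + ∑ k ∈ Ico k₀ N, y k + ∑ k ∈ Ico k₀ N, WW N (k + 1) (dE k) := by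
  have key : ∀ K, k₀ ≤ K → K ≤ N →
      ∑ k ∈ Ico k₀ K, SEW N k (E' k) + WW N K (E K)
      ≤ WW N k₀ (E k₀) + ∑ k ∈ Ico k₀ K, y k + ∑ k ∈ Ico k₀ K, WW N (k + 1) (dE k) := by
    intro K hK
    induction K, hK using Nat.le_induction with
    | base => intro _; simp
    | succ K hK ih =>
      intro hKN
      have hlt : K < N := by omega
      have q := ih hlt.le
      have q2 := WW_step hlt (h2 K hK hlt)
      have q4 := h4 K hK hlt
      rw [sum_Ico_succ_top hK, sum_Ico_succ_top hK, sum_Ico_succ_top hK]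
      linarith
  exact key N hkN le_rfl

/-! ### Plane sums of one pair, Cauchy–Schwarz -/

theorem GW_left (N : ℕ) (R S T : ℤ) (k : ℕ) (c : ℤ) {α : ℤ → ℤ → ℝ} (hα : ∀ n m, 0 ≤ α n m) :
    GW N R S T k c (fun n _ m => α n m)
      ≤ 4 ^ k * ∑ m ∈ iv (N - k) S, ∑ n ∈ iv (N - k) R, α n m := by
  unfold GW
  refine mul_le_mul_of_nonneg_left (sum_le_sum fun m _ => sum_le_sum fun n _ => ?_)
    (by positivity)
  split_ifs
  · exact le_rfl
  · exact hα n m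

theorem GW_right (N : ℕ) (R S T : ℤ) (k : ℕ) (c : ℤ) {β : ℤ → ℤ → ℝ} (hβ : ∀ n m, 0 ≤ β n m) :
    GW N R S T k c (fun _ n' m => β n' m)
      ≤ 4 ^ k * ∑ m ∈ iv (N - k) S, ∑ n ∈ iv (N - k) T, β n m := by
  unfold GW
  refine mul_le_mul_of_nonneg_left (sum_le_sum fun m _ => ?_) (by positivity)
  exact H588.sum_refl_le (N - k) R T (c - m) (fun n => β n m) (fun n => hβ n m)

theorem GW_nonneg (N : ℕ) (R S T : ℤ) (k : ℕ) (c : ℤ) {g : ℤ → ℤ → ℤ → ℝ}
    (h : ∀ n n' m, 0 ≤ g n n' m) : 0 ≤ GW N R S T k c g := by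
  unfold GW
  refine mul_nonneg (by positivity) (sum_nonneg fun m _ => sum_nonneg fun n _ => ?_)
  split_ifs
  · exact h _ _ _
  · exact le_rfl

theorem GW_cs (N : ℕ) (R S T : ℤ) (k : ℕ) (c : ℤ) {α β : ℤ → ℤ → ℤ → ℝ}
    (hα : ∀ n n' m, 0 ≤ α n n' m) (hβ : ∀ n n' m, 0 ≤ β n n' m) :
    GW N R S T k c (fun n n' m => √(α n n' m) * √(β n n' m))
      ≤ √(GW N R S T k c α) * √(GW N R S T k c β) := by
  have hs : ∀ g : ℤ → ℤ → ℤ → ℝ, GW N R S T k c g
      = 4 ^ k * ∑ p ∈ iv (N - k) S ×ˢ iv (N - k) R,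
        (if c - p.1 - p.2 ∈ iv (N - k) T then g p.2 (c - p.1 - p.2) p.1 else 0) := by
    intro g
    unfold GW
    rw [sum_product]
  rw [hs, hs, hs, Real.sqrt_mul (by positivity), Real.sqrt_mul (by positivity)]
  have h1 := Real.sum_sqrt_mul_sqrt_le (iv (N - k) S ×ˢ iv (N - k) R)
    (f := fun p => if c - p.1 - p.2 ∈ iv (N - k) T then α p.2 (c - p.1 - p.2) p.1 else 0)
    (g := fun p => if c - p.1 - p.2 ∈ iv (N - k) T then β p.2 (c - p.1 - p.2) p.1 else 0)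
    (fun p => by split_ifs; exacts [hα _ _ _, le_rfl])
    (fun p => by split_ifs; exacts [hβ _ _ _, le_rfl])
  have h2 : ∑ p ∈ iv (N - k) S ×ˢ iv (N - k) R,
      (if c - p.1 - p.2 ∈ iv (N - k) T then
        √(α p.2 (c - p.1 - p.2) p.1) * √(β p.2 (c - p.1 - p.2) p.1) else 0)
      = ∑ p ∈ iv (N - k) S ×ˢ iv (N - k) R,
      √(if c - p.1 - p.2 ∈ iv (N - k) T then α p.2 (c - p.1 - p.2) p.1 else 0)
        * √(if c - p.1 - p.2 ∈ iv (N - k) T then β p.2 (c - p.1 - p.2) p.1 else 0) := by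
    refine sum_congr rfl fun p _ => ?_
    split_ifs
    · rfl
    · simp
  rw [h2]
  have h3 : √((4 : ℝ) ^ k) * √((4 : ℝ) ^ k) = 4 ^ k := Real.mul_self_sqrt (by positivity)
  refine (mul_le_mul_of_nonneg_left h1 (by positivity)).trans (le_of_eq ?_)
  rw [mul_mul_mul_comm, h3]

/-- the increments of the potential at the finest outer scale, summed over a plane -/
theorem GW_inc {N k : ℕ} (h : k < N) (R S T : ℤ) (c : ℤ) {φ : ℕ → ℤ → ℤ → ℝ}
    (h0 : ∀ n m, 0 ≤ φ k (2 * n) m + φ k (2 * n + 1) m - 2 * φ (k + 1) n m) :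
    GW N R S T (k + 1) c (fun n _ m => (1 / 4) *
        ((φ k (2 * n) (2 * m) + φ k (2 * n + 1) (2 * m) - 2 * φ (k + 1) n (2 * m))
        + (φ k (2 * n) (2 * m + 1) + φ k (2 * n + 1) (2 * m + 1)
          - 2 * φ (k + 1) n (2 * m + 1))))
      ≤ EP N R S k φ k - EP N R S k φ (k + 1) := by
  refine (GW_left N R S T (k + 1) c (α := fun n m => (1 / 4) *
        ((φ k (2 * n) (2 * m) + φ k (2 * n + 1) (2 * m) - 2 * φ (k + 1) n (2 * m))
        + (φ k (2 * n) (2 * m + 1) + φ k (2 * n + 1) (2 * m + 1)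
          - 2 * φ (k + 1) n (2 * m + 1)))) (fun n m => ?_)).trans (le_of_eq ?_)
  · have h1 := h0 n (2 * m)
    have h2 := h0 n (2 * m + 1)
    linarith
  · have e : N - k = (N - (k + 1)) + 1 := by omega
    unfold EP
    rw [e, sum_iv_pair, sum_iv_pair (N - (k + 1)) S]
    simp only [sum_iv_pair (N - (k + 1)) R, ← mul_sum, sum_add_distrib, sum_sub_distrib]
    rw [pow_succ, pow_succ]
    have h4 : (4 : ℝ) ^ k = 2 ^ k * 2 ^ k := by rw [← mul_pow]; norm_num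
    rw [h4]
    ring

end

end Vale.Agent.P141.H103
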