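import Vale.Agent.P141.H28.RidgeW
import Vale.Agent.P141.H442.Lip

/-!
# P141, line (A): the middle step of a pair, both slots saturated, moving weight

`mid_any` : the middle step of `RidgeW` with an arbitrary positive partner.
`mid_sat` : the partner is itself a saturated Gram matrix.  The defect of the partner under the
halving is of first order; it is paid by half of the gain and by the middle defects of both slots.
-/

set_option linter.unusedSectionVars false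

namespace Vale.Agent.P141.H103.SatMid

open Matrix Vale.Agent.P075 Vale.Agent.P141.H28 Vale.Agent.P141.H442

noncomputable section

section lip

variable {κ n : Type*} [Fintype κ] [DecidableEq κ] [Fintype n] [DecidableEq n]

/-- the saturated Gram matrix is Lipschitz in the weight -/
theorem ps_lip_w {ν : ℝ} (hν : 0 < ν) {Θ Θ' T' : Matrix κ κ ℝ} (hΘ : Θ.PosSemidef)
    (hΘ' : Θ'.PosSemidef) (hT' : Θ' * T' = 1) (hTp : T'.PosSemidef) (c : Matrix κ n ℝ) :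
    hs (ps ν (cᵀ * Θ' * c) - ps ν (cᵀ * Θ * c))
      ≤ (1 / 4) * ν⁻¹ * (cᵀ * ((Θ' - Θ) * T' * (Θ' - Θ)) * c).trace := by
  obtain ⟨S, hS, hSS⟩ := exists_sq hTp
  have sS : Sᵀ = S := psd_isSymm hS
  have sΘ := psd_isSymm hΘ
  have sΘ' := psd_isSymm hΘ'
  have hX := nu_psd hν (gram_psd hΘ c)
  have hX' := nu_psd hν (gram_psd hΘ' c)
  set r := Real.sqrt ν with hr
  have hrr : r * r = ν := Real.mul_self_sqrt hν.le
  set C : Matrix n κ ℝ := r • (cᵀ * (Θ' * S)) with hC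
  set B : Matrix κ n ℝ := r • (S * (Θ' - Θ) * c) with hB
  have e1 : C * Cᵀ = ν • (cᵀ * Θ' * c) := by
    have q : cᵀ * (Θ' * S) * (cᵀ * (Θ' * S))ᵀ = cᵀ * Θ' * c := by
      rw [transpose_mul, transpose_mul, transpose_transpose, sS, sΘ']
      calc cᵀ * (Θ' * S) * (S * Θ' * c) = cᵀ * (Θ' * (S * S)) * Θ' * c := by
            simp only [Matrix.mul_assoc]
        _ = cᵀ * Θ' * c := by rw [hSS, hT', Matrix.mul_one]
    rw [hC, transpose_smul, Matrix.smul_mul, Matrix.mul_smul, smul_smul, hrr, q]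
  have e2 : C * B = ν • (cᵀ * (Θ' - Θ) * c) := by
    have q : cᵀ * (Θ' * S) * (S * (Θ' - Θ) * c) = cᵀ * (Θ' - Θ) * c := by
      calc cᵀ * (Θ' * S) * (S * (Θ' - Θ) * c) = cᵀ * (Θ' * (S * S)) * (Θ' - Θ) * c := by
            simp only [Matrix.mul_assoc]
        _ = cᵀ * (Θ' - Θ) * c := by rw [hSS, hT', Matrix.mul_one]
    rw [hC, hB, Matrix.smul_mul, Matrix.mul_smul, smul_smul, hrr, q]
  have e3 : ps ν (cᵀ * Θ' * c) - ps ν (cᵀ * Θ * c)
      = ν⁻¹ • (res (C * Cᵀ) * C * (B * res (ν • (cᵀ * Θ * c)))) := by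
    have f1 := res_mul_one_add hX'
    have f2 := one_add_mul_res hX
    have f3 : C * B = (1 + ν • (cᵀ * Θ' * c)) - (1 + ν • (cᵀ * Θ * c)) := by
      rw [e2, Matrix.mul_sub, Matrix.sub_mul, smul_sub]; abel
    have f4 : res (C * Cᵀ) * C * (B * res (ν • (cᵀ * Θ * c)))
        = res (ν • (cᵀ * Θ' * c)) * (C * B) * res (ν • (cᵀ * Θ * c)) := by
      rw [e1]; simp only [Matrix.mul_assoc]
    rw [f4, f3, Matrix.mul_sub, f1, Matrix.sub_mul, Matrix.mul_assoc _ _ (res (ν • (cᵀ * Θ * c))),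
      f2, Matrix.one_mul, Matrix.mul_one, ps, ps, phi, phi, ← smul_sub]
    congr 1
    abel
  have e4 : hs (B * res (ν • (cᵀ * Θ * c))) ≤ hs B := by
    have h := hs_res_mul hX Bᵀ
    rw [hs_transpose] at h
    have e : B * res (ν • (cᵀ * Θ * c)) = (res (ν • (cᵀ * Θ * c)) * Bᵀ)ᵀ := by
      rw [transpose_mul, transpose_transpose, res_symm hX]
    rw [e, hs_transpose]
    exact h
  have e5 : hs B = ν * (cᵀ * ((Θ' - Θ) * T' * (Θ' - Θ)) * c).trace := by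
    have sW : (Θ' - Θ)ᵀ = Θ' - Θ := by rw [transpose_sub, sΘ, sΘ']
    rw [hB, hs_smul, pow_two, hrr, hs_eq_trace', transpose_mul, transpose_mul, sW, sS, ← hSS]
    simp only [Matrix.mul_assoc]
  have h := hs_res_C_mul C (B * res (ν • (cᵀ * Θ * c)))
  rw [e3, hs_smul]
  rw [e5] at e4
  have hi : 0 ≤ (ν⁻¹) ^ 2 := by positivity
  have h2 := mul_le_mul_of_nonneg_left (h.trans (mul_le_mul_of_nonneg_left e4
    (by norm_num : (0 : ℝ) ≤ 1 / 4))) hi
  refine h2.trans (le_of_eq ?_)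
  field_simp

end lip

section kapp

variable {n : Type*} [Fintype n] [DecidableEq n]

/-- first order term against a capped matrix -/
theorem kap_le {a a' b : Matrix n n ℝ} {θ q : ℝ} (hθ : 0 < θ) (ha : a.PosSemidef)
    (ha1 : (1 - a).PosSemidef) (ha' : a'.PosSemidef) (hb : b.PosSemidef)
    (hb1 : (q • b - b * b).PosSemidef) :
    (kap a a' * b).trace ≤ θ * (a * a').trace + q / θ * (a' * b).trace := by
  have hbs := psd_isSymm hb
  have h0 : 0 ≤ (a * ((θ • (1 : Matrix n n ℝ) - b) * a' * (θ • (1 : Matrix n n ℝ) - b))).trace := by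
    refine trace_mul_nonneg ha (psd_conj_symm ha' ?_)
    rw [transpose_sub, hbs, transpose_smul, transpose_one]
  have h1 : a * ((θ • (1 : Matrix n n ℝ) - b) * a' * (θ • (1 : Matrix n n ℝ) - b))
      = (θ * θ) • (a * a') - θ • (a * b * a' + a * a' * b) + a * (b * a' * b) := by
    simp only [Matrix.sub_mul, Matrix.mul_sub, Matrix.smul_mul, Matrix.mul_smul, Matrix.one_mul,
      Matrix.mul_one, smul_sub, smul_add, smul_smul, Matrix.mul_assoc]
    abel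
  have h2 : (a * (b * a' * b)).trace ≤ (1 * (b * a' * b)).trace :=
    trace_mul_le_left (psd_conj_symm ha' hbs) ha1
  have h3 : (b * a' * b).trace = (a' * (b * b)).trace := by
    rw [Matrix.mul_assoc, trace_mul_comm, Matrix.mul_assoc]
  have h4 : (a' * (b * b)).trace ≤ (a' * (q • b)).trace := trace_mul_le_right ha' hb1
  rw [Matrix.mul_smul, trace_smul, smul_eq_mul] at h4
  have h5 : (a * b * a').trace = (a' * a * b).trace := by
    rw [trace_mul_comm, ← Matrix.mul_assoc]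
  rw [h1, trace_add, trace_sub, trace_smul, trace_smul, trace_add, h5] at h0
  rw [Matrix.one_mul, h3] at h2
  simp only [smul_eq_mul] at h0
  have e : (kap a a' * b).trace = (a' * a * b).trace + (a * a' * b).trace := by
    rw [kap, Matrix.add_mul, trace_add]; ring
  rw [e]
  have h6 : θ * ((a' * a * b).trace + (a * a' * b).trace)
      ≤ θ * (θ * (a * a').trace + q / θ * (a' * b).trace) := by
    have : θ * (θ * (a * a').trace + q / θ * (a' * b).trace)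
        = θ * θ * (a * a').trace + q * (a' * b).trace := by field_simp
    rw [this]
    linarith
  exact le_of_mul_le_mul_left h6 hθ

/-- Young inequality for symmetric matrices -/
theorem tr_young {U V : Matrix n n ℝ} (hU : Uᵀ = U) (hV : Vᵀ = V) {c : ℝ} (hc : 0 < c) :
    (U * V).trace ≤ c / 2 * (U * U).trace + 1 / (2 * c) * (V * V).trace := by
  have h := trace_sq_nonneg (B := c • U - V) (by rw [transpose_sub, transpose_smul, hU, hV])
  have e := trace_mul_comm V U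
  simp only [Matrix.sub_mul, Matrix.mul_sub, Matrix.smul_mul, Matrix.mul_smul, trace_sub,
    trace_smul, smul_eq_mul] at h
  rw [e] at h
  have h2 : 2 * c * (U * V).trace ≤ 2 * c * (c / 2 * (U * U).trace
      + 1 / (2 * c) * (V * V).trace) := by
    have : 2 * c * (c / 2 * (U * U).trace + 1 / (2 * c) * (V * V).trace)
        = c * (c * (U * U).trace) + (V * V).trace := by field_simp
    rw [this]
    linarith
  exact le_of_mul_le_mul_left h2 (by positivity)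

/-- the square of a difference -/
theorem tr_sub_sq_le {U V : Matrix n n ℝ} (hU : Uᵀ = U) (hV : Vᵀ = V) :
    ((U - V) * (U - V)).trace ≤ 2 * (U * U).trace + 2 * (V * V).trace := by
  have h := trace_sq_nonneg (B := U + V) (by rw [transpose_add, hU, hV])
  have e := trace_mul_comm V U
  simp only [Matrix.add_mul, Matrix.mul_add, Matrix.sub_mul, Matrix.mul_sub, trace_add,
    trace_sub] at h ⊢
  linarith

theorem ps_cap {ν : ℝ} (hν : 0 < ν) {X : Matrix n n ℝ} (hX : X.PosSemidef) :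
    (ν⁻¹ • (1 : Matrix n n ℝ) - ps ν X).PosSemidef := by
  rw [ps, ← smul_sub]
  exact (one_sub_phi_psd (nu_psd hν hX)).smul (inv_nonneg.2 hν.le)

theorem ps_sq {ν : ℝ} (hν : 0 < ν) {X : Matrix n n ℝ} (hX : X.PosSemidef) :
    (ν⁻¹ • ps ν X - ps ν X * ps ν X).PosSemidef := by
  have h := (phi_sub_sq_psd (nu_psd hν hX)).smul (by positivity : 0 ≤ ν⁻¹ * ν⁻¹)
  have e : ν⁻¹ • ps ν X - ps ν X * ps ν X
      = (ν⁻¹ * ν⁻¹) • (phi (ν • X) - phi (ν • X) * phi (ν • X)) := by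
    rw [ps, Matrix.smul_mul, Matrix.mul_smul, smul_smul, smul_smul, smul_sub]
  rwa [e]

theorem phi_ps {ν : ℝ} (hν : 0 < ν) (X : Matrix n n ℝ) : phi (ν • X) = ν • ps ν X := by
  rw [ps, smul_smul, mul_inv_cancel₀ hν.ne', one_smul]

end kapp

section main

variable {κ α ι : Type*} [Fintype κ] [Fintype α] [Fintype ι] [DecidableEq ι] [DecidableEq κ]

/-- **Middle step with an arbitrary positive partner.** -/
theorem mid_any {ν τ : ℝ} (hν : 0 < ν) (hτ : 0 ≤ τ)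
    {Θ T Θ₀ T₀ Θ₁ T₁ N M Nm : Matrix κ κ ℝ} (hΘ : Θ.PosSemidef)
    (hΘ₀ : Θ₀.PosSemidef) (hΘ₁ : Θ₁.PosSemidef) (hT : Θ * T = 1) (hT₀ : Θ₀ * T₀ = 1)
    (hT₁ : Θ₁ * T₁ = 1) (hTp : T.PosSemidef) (hTp₀ : T₀.PosSemidef) (hTp₁ : T₁.PosSemidef)
    (e₀ : Θ₀ = Θ + N + M) (e₁ : Θ₁ = Θ + N - M) (hN : Nᵀ = N) (hM : Mᵀ = M)
    (hNm : Nm.PosSemidef) (hNN : (N + Nm).PosSemidef)
    {P : Matrix (ι ⊕ ι) (ι ⊕ ι) ℝ} (hP : P.PosSemidef)
    (hPt : (τ • (1 : Matrix (ι ⊕ ι) (ι ⊕ ι) ℝ) - P).PosSemidef) (c₀ c₁ : Matrix κ ι ℝ)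
    {X : Matrix (ι ⊕ ι) (ι ⊕ ι) ℝ}
    (hX : X = (1 / 2 : ℝ) • ((fromCols c₀ c₁)ᵀ * Θ * fromCols c₀ c₁)) :
    (P * ps ν X).trace + (1 / 4) * (P * (rad ι * ps ν X * rad ι)).trace
      ≤ (P * bd (ps ν (c₀ᵀ * Θ₀ * c₀)) (ps ν (c₁ᵀ * Θ₁ * c₁))).trace
        + 2 * τ * ((ν / 2) * (ps ν X * (rad ι * ps ν X * rad ι)).trace
          + ((c₀ᵀ * (M * T * M) * c₀).trace + (c₁ᵀ * (M * T * M) * c₁).trace)
          + (1 / 2) * ((c₀ᵀ * ((N + M) * T₀ * (N + M)) * c₀).trace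
            + (c₁ᵀ * ((N - M) * T₁ * (N - M)) * c₁).trace)
          + (1 / 2) * ((c₀ᵀ * Nm * c₀).trace + (c₁ᵀ * Nm * c₁).trace)) := by
  obtain ⟨S, hS, hSS⟩ := exists_sq hP
  have sS : Sᵀ = S := psd_isSymm hS
  set r2 := Real.sqrt 2 with hr2
  have hrr : r2 * r2 = 2 := Real.mul_self_sqrt (by norm_num)
  set A : Matrix (ι ⊕ ι) (ι ⊕ ι) ℝ := r2 • S with hA
  have hAA : Aᵀ * A = (2 : ℝ) • P := by
    rw [hA, transpose_smul, sS, Matrix.smul_mul, Matrix.mul_smul, smul_smul, hrr, hSS]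
  have hfc : fromCols A.toCols₁ A.toCols₂ = A := fromCols_toCols A
  have hXA : P = (1 / 2 : ℝ) • ((fromCols A.toCols₁ A.toCols₂)ᵀ
      * fromCols A.toCols₁ A.toCols₂) := by
    rw [hfc, hAA, smul_smul]; norm_num
  have b₀ : A.toCols₁ᵀ * A.toCols₁ = ((2 : ℝ) • P).submatrix Sum.inl Sum.inl := by
    rw [← hAA]; rfl
  have b₁ : A.toCols₂ᵀ * A.toCols₂ = ((2 : ℝ) • P).submatrix Sum.inr Sum.inr := by
    rw [← hAA]; rfl
  have hcap : ((2 * τ) • (1 : Matrix (ι ⊕ ι) (ι ⊕ ι) ℝ) - (2 : ℝ) • P).PosSemidef := by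
    have := hPt.smul (show (0 : ℝ) ≤ 2 by norm_num)
    rwa [smul_sub, smul_smul] at this
  have c0 : ((2 * τ) • (1 : Matrix ι ι ℝ) - A.toCols₁ᵀ * A.toCols₁).PosSemidef := by
    have h := hcap.submatrix Sum.inl
    have e : ((2 * τ) • (1 : Matrix (ι ⊕ ι) (ι ⊕ ι) ℝ) - (2 : ℝ) • P).submatrix Sum.inl Sum.inl
        = (2 * τ) • (1 : Matrix ι ι ℝ) - A.toCols₁ᵀ * A.toCols₁ := by
      rw [b₀]
      ext i j
      simp [Matrix.one_apply]
    rwa [e] at h
  have c1 : ((2 * τ) • (1 : Matrix ι ι ℝ) - A.toCols₂ᵀ * A.toCols₂).PosSemidef := by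
    have h := hcap.submatrix Sum.inr
    have e : ((2 * τ) • (1 : Matrix (ι ⊕ ι) (ι ⊕ ι) ℝ) - (2 : ℝ) • P).submatrix Sum.inr Sum.inr
        = (2 * τ) • (1 : Matrix ι ι ℝ) - A.toCols₂ᵀ * A.toCols₂ := by
      rw [b₁]
      ext i j
      simp [Matrix.one_apply]
    rwa [e] at h
  have h := mid_weight hν (by positivity : 0 ≤ 2 * τ) hΘ hΘ₀ hΘ₁ hT hT₀ hT₁ hTp hTp₀ hTp₁ e₀ e₁
    hN hM hNm hNN c0 c1 c₀ c₁ hX hXA
  have hb := half_bd' A.toCols₁ A.toCols₂
  rw [← hXA] at hb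
  have ht := trace_rad P (bd (ps ν (c₀ᵀ * Θ₀ * c₀)) (ps ν (c₁ᵀ * Θ₁ * c₁))) (rad_bd _ _)
  rw [hb, tr_bd'] at ht
  rw [ht]
  exact h

/-- **Middle step, both slots saturated, moving weight of the second one.** -/
theorem mid_sat {ν μ : ℝ} (hν : 0 < ν) (hμ : 0 < μ)
    {Θ T Θ₀ T₀ Θ₁ T₁ N M Nm : Matrix κ κ ℝ} (hΘ : Θ.PosSemidef)
    (hΘ₀ : Θ₀.PosSemidef) (hΘ₁ : Θ₁.PosSemidef) (hT : Θ * T = 1) (hT₀ : Θ₀ * T₀ = 1)
    (hT₁ : Θ₁ * T₁ = 1) (hTp : T.PosSemidef) (hTp₀ : T₀.PosSemidef) (hTp₁ : T₁.PosSemidef)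
    (e₀ : Θ₀ = Θ + N + M) (e₁ : Θ₁ = Θ + N - M) (hN : Nᵀ = N) (hM : Mᵀ = M)
    (hNm : Nm.PosSemidef) (hNN : (N + Nm).PosSemidef)
    (A₀ A₁ : Matrix α ι ℝ) (c₀ c₁ : Matrix κ ι ℝ)
    {X V : Matrix (ι ⊕ ι) (ι ⊕ ι) ℝ}
    (hX : X = (1 / 2 : ℝ) • ((fromCols c₀ c₁)ᵀ * Θ * fromCols c₀ c₁))
    (hV : V = (1 / 2 : ℝ) • ((fromCols A₀ A₁)ᵀ * fromCols A₀ A₁)) :
    (ps μ V * ps ν X).trace + (1 / 8) * (ps μ V * (rad ι * ps ν X * rad ι)).trace
      ≤ (1 / 2) * ((ps μ (A₀ᵀ * A₀) * ps ν (c₀ᵀ * Θ₀ * c₀)).trace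
          + (ps μ (A₁ᵀ * A₁) * ps ν (c₁ᵀ * Θ₁ * c₁)).trace)
        + 2 * μ⁻¹ * ((ν / 2) * (ps ν X * (rad ι * ps ν X * rad ι)).trace
          + ((c₀ᵀ * (M * T * M) * c₀).trace + (c₁ᵀ * (M * T * M) * c₁).trace)
          + (1 / 2) * ((c₀ᵀ * ((N + M) * T₀ * (N + M)) * c₀).trace
            + (c₁ᵀ * ((N - M) * T₁ * (N - M)) * c₁).trace)
          + (1 / 2) * ((c₀ᵀ * Nm * c₀).trace + (c₁ᵀ * Nm * c₁).trace))
        + 9 * (μ / ν) * (ps μ V * (rad ι * ps μ V * rad ι)).trace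
        + 6 * (ν / μ) * (ps ν X * (rad ι * ps ν X * rad ι)).trace
        + (1 / 8) * μ⁻¹ * ((c₀ᵀ * ((N + M) * T₀ * (N + M)) * c₀).trace
            + (c₁ᵀ * ((N - M) * T₁ * (N - M)) * c₁).trace) := by
  classical
  have gX : X.PosSemidef := by
    rw [hX]; exact (gram_psd hΘ _).smul (by norm_num)
  have gV : V.PosSemidef := by
    rw [hV]; exact (psd_transpose_mul _).smul (by norm_num)
  have hi : 0 < μ⁻¹ := inv_pos.2 hμ
  have hj : 0 < ν⁻¹ := inv_pos.2 hν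
  have h := mid_any hν hi.le hΘ hΘ₀ hΘ₁ hT hT₀ hT₁ hTp hTp₀ hTp₁ e₀ e₁ hN hM hNm hNN
    (ps_psd hμ gV) (ps_cap hμ gV) c₀ c₁ hX
  set P := ps μ V with hPd
  set Q := ps ν X with hQd
  set r := rad ι with hrd
  have hr : rᵀ = r := rad_symm (m := ι)
  have hr2 : r * r = 1 := rad_sq
  have pP : P.PosSemidef := ps_psd hμ gV
  have pQ : Q.PosSemidef := ps_psd hν gX
  have sP := psd_isSymm pP
  have sQ := psd_isSymm pQ
  -- blocks
  have gA₀ : (A₀ᵀ * A₀).PosSemidef := psd_transpose_mul A₀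
  have gA₁ : (A₁ᵀ * A₁).PosSemidef := psd_transpose_mul A₁
  have g₀ := gram_psd hΘ c₀
  have g₁ := gram_psd hΘ c₁
  have g₀' := gram_psd hΘ₀ c₀
  have g₁' := gram_psd hΘ₁ c₁
  have bV : V + r * V * r = bd (A₀ᵀ * A₀) (A₁ᵀ * A₁) := by
    rw [hV]; exact half_bd' A₀ A₁
  have bX : X + r * X * r = bd (c₀ᵀ * Θ * c₀) (c₁ᵀ * Θ * c₁) := by
    rw [hX]; exact half_bd Θ c₀ c₁
  have bdphi : ∀ {ρ : ℝ}, 0 < ρ → ∀ {Z : Matrix (ι ⊕ ι) (ι ⊕ ι) ℝ} {D₀ D₁ : Matrix ι ι ℝ},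
      D₀.PosSemidef → D₁.PosSemidef → Z + r * Z * r = bd D₀ D₁ →
      phi (ρ • Z + r * (ρ • Z) * r) = ρ • bd (ps ρ D₀) (ps ρ D₁) := by
    intro ρ hρ Z D₀ D₁ h0 h1 hZ
    have e : ρ • Z + r * (ρ • Z) * r = bd (ρ • D₀) (ρ • D₁) := by
      have e1 : ρ • Z + r * (ρ • Z) * r = ρ • (Z + r * Z * r) := by
        rw [smul_add, Matrix.mul_smul, Matrix.smul_mul]
      rw [e1, hZ, bd, bd, fromBlocks_smul, smul_zero]
    rw [e, phi_bd (nu_psd hρ h0) (nu_psd hρ h1), phi_ps hρ, phi_ps hρ, bd, bd, fromBlocks_smul,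
      smul_zero]
  have fV := bdphi hμ gA₀ gA₁ bV
  have fX := bdphi hν g₀ g₁ bX
  -- the saturated matrices
  have hVm := nu_psd hμ gV
  have hXm := nu_psd hν gX
  have hVm' := refl_psd hVm hr
  have hXm' := refl_psd hXm hr
  set a := phi (μ • V) with ha
  set a' := phi (r * (μ • V) * r) with ha'
  have eaP : a = μ • P := phi_ps hμ V
  have ea' : a' = r * a * r := phi_refl hVm hr hr2
  have pa : a.PosSemidef := phi_psd hVm
  have pa' : a'.PosSemidef := phi_psd hVm'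
  set Y := bd (ps ν (c₀ᵀ * Θ₀ * c₀)) (ps ν (c₁ᵀ * Θ₁ * c₁)) with hY
  have pY : Y.PosSemidef := bd_psd (ps_psd hν g₀') (ps_psd hν g₁')
  have sY := psd_isSymm pY
  -- the loss of the partner
  have l1 : (P * Y).trace = (1 / 2) * ((ps μ (A₀ᵀ * A₀) * ps ν (c₀ᵀ * Θ₀ * c₀)).trace
          + (ps μ (A₁ᵀ * A₁) * ps ν (c₁ᵀ * Θ₁ * c₁)).trace)
      + (1 / 2) * μ⁻¹ * (Del (μ • V) (r * (μ • V) * r) * Y).trace := by
    have t1 := trace_rad P Y (rad_bd _ _)
    have t2 : P + r * P * r = bd (ps μ (A₀ᵀ * A₀)) (ps μ (A₁ᵀ * A₁))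
        + μ⁻¹ • Del (μ • V) (r * (μ • V) * r) := by
      have q1 : Del (μ • V) (r * (μ • V) * r)
          = μ • (P + r * P * r) - μ • bd (ps μ (A₀ᵀ * A₀)) (ps μ (A₁ᵀ * A₁)) := by
        rw [Del, fV, ← ha, ← ha', ea', eaP, Matrix.mul_smul, Matrix.smul_mul, smul_add]
      rw [q1, ← smul_sub, smul_smul, inv_mul_cancel₀ hμ.ne', one_smul]
      abel
    rw [t1, ← hrd, t2, Matrix.add_mul, trace_add, Matrix.smul_mul, trace_smul, smul_eq_mul, hY,
      tr_bd']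
    ring
  have l2 : (Del (μ • V) (r * (μ • V) * r) * Y).trace ≤ (kap a a' * Y).trace := by
    have h1 := trace_mul_nonneg (Gam_psd hVm hVm') pY
    rw [Del_eq, Matrix.sub_mul, trace_sub]
    linarith
  -- the decomposition of `Y`
  set E := Y - Q - r * Q * r with hE
  have sE : Eᵀ = E := by
    rw [hE, transpose_sub, transpose_sub, sY, sQ, transpose_mul, transpose_mul, hr, sQ,
      Matrix.mul_assoc]
  set K := kap a a' with hK
  have sK : Kᵀ = K := by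
    rw [hK, kap, transpose_add, transpose_mul, transpose_mul, psd_isSymm pa, psd_isSymm pa',
      add_comm]
  have rK : r * K * r = K := by
    have q1 : r * a' * r = a := by rw [ea', refl_refl hr2]
    have q2 : r * (a * a') * r = a' * a := by
      calc r * (a * a') * r = r * a * (r * r) * a' * r := by
            rw [hr2, Matrix.mul_one]; simp only [Matrix.mul_assoc]
        _ = (r * a * r) * (r * a' * r) := by simp only [Matrix.mul_assoc]
        _ = a' * a := by rw [q1, ← ea']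
    have q3 : r * (a' * a) * r = a * a' := by
      calc r * (a' * a) * r = r * a' * (r * r) * a * r := by
            rw [hr2, Matrix.mul_one]; simp only [Matrix.mul_assoc]
        _ = (r * a' * r) * (r * a * r) := by simp only [Matrix.mul_assoc]
        _ = a * a' := by rw [q1, ← ea']
    rw [hK, kap, Matrix.mul_add, Matrix.add_mul, q2, q3, add_comm]
  have l3 : (K * Y).trace = 2 * (K * Q).trace + (K * E).trace := by
    have q1 : Y = Q + r * Q * r + E := by rw [hE]; abel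
    have q2 : (K * (r * Q * r)).trace = (K * Q).trace := by
      calc (K * (r * Q * r)).trace = (r * K * r * Q).trace := by
            rw [← Matrix.mul_assoc, trace_mul_comm, ← Matrix.mul_assoc, ← Matrix.mul_assoc]
        _ = (K * Q).trace := by rw [rK]
    conv_lhs => rw [q1]
    rw [Matrix.mul_add, Matrix.mul_add, trace_add, trace_add, q2]
    ring
  -- sizes
  have dA : (a * a').trace = μ * μ * (P * (r * P * r)).trace := by
    rw [ea', eaP]
    simp only [Matrix.mul_smul, Matrix.smul_mul, trace_smul, smul_eq_mul]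
    ring
  have dG : (a' * Q).trace = μ * (P * (r * Q * r)).trace := by
    rw [ea', eaP]
    simp only [Matrix.mul_smul, Matrix.smul_mul, trace_smul, smul_eq_mul]
    congr 1
    rw [Matrix.mul_assoc, Matrix.mul_assoc, trace_mul_comm]
    simp only [Matrix.mul_assoc]
  have l4 : (K * Q).trace ≤ 8 * ν⁻¹ * (a * a').trace + (1 / 8) * (a' * Q).trace := by
    have q := kap_le (θ := 8 * ν⁻¹) (q := ν⁻¹) (by positivity) pa (one_sub_phi_psd hVm) pa' pQ
      (ps_sq hν gX)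
    have e : ν⁻¹ / (8 * ν⁻¹) = 1 / 8 := by field_simp
    rw [e] at q
    exact q
  have l5 : (K * E).trace ≤ ν⁻¹ / 2 * (K * K).trace + 1 / (2 * ν⁻¹) * (E * E).trace :=
    tr_young sK sE hj
  have l6 : (K * K).trace ≤ 4 * (a * a').trace :=
    trace_kap_sq_le pa (one_sub_phi_psd hVm) (phi_sub_sq_psd hVm) pa' (one_sub_phi_psd hVm')
      (phi_sub_sq_psd hVm')
  -- the error
  set W₀ := ps ν (c₀ᵀ * Θ₀ * c₀) - ps ν (c₀ᵀ * Θ * c₀) with hW₀
  set W₁ := ps ν (c₁ᵀ * Θ₁ * c₁) - ps ν (c₁ᵀ * Θ * c₁) with hW₁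
  have w₀ := ps_lip_w hν hΘ hΘ₀ hT₀ hTp₀ c₀
  have w₁ := ps_lip_w hν hΘ hΘ₁ hT₁ hTp₁ c₁
  have d₀ : Θ₀ - Θ = N + M := by rw [e₀]; abel
  have d₁ : Θ₁ - Θ = N - M := by rw [e₁]; abel
  rw [d₀, ← hW₀] at w₀
  rw [d₁, ← hW₁] at w₁
  have sW₀ : W₀ᵀ = W₀ := by
    rw [hW₀, transpose_sub, psd_isSymm (ps_psd hν g₀'), psd_isSymm (ps_psd hν g₀)]
  have sW₁ : W₁ᵀ = W₁ := by
    rw [hW₁, transpose_sub, psd_isSymm (ps_psd hν g₁'), psd_isSymm (ps_psd hν g₁)]
  have eE : E = bd W₀ W₁ - ν⁻¹ • Del (ν • X) (r * (ν • X) * r) := by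
    have q1 : Del (ν • X) (r * (ν • X) * r)
        = ν • (Q + r * Q * r) - ν • bd (ps ν (c₀ᵀ * Θ * c₀)) (ps ν (c₁ᵀ * Θ * c₁)) := by
      rw [Del, fX, phi_refl hXm hr hr2, phi_ps hν, ← hQd, Matrix.mul_smul, Matrix.smul_mul,
        smul_add]
    have q2 : bd W₀ W₁ = Y - bd (ps ν (c₀ᵀ * Θ * c₀)) (ps ν (c₁ᵀ * Θ * c₁)) := by
      rw [hY, hW₀, hW₁, bd, bd, bd]
      ext i j
      rcases i with i | i <;> rcases j with j | j <;> simp [fromBlocks]
    rw [q1, q2, ← smul_sub, smul_smul, inv_mul_cancel₀ hν.ne', one_smul, hE]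
    abel
  have l7 : (E * E).trace ≤ 24 * (Q * (r * Q * r)).trace
      + (1 / 2) * ν⁻¹ * ((c₀ᵀ * ((N + M) * T₀ * (N + M)) * c₀).trace
            + (c₁ᵀ * ((N - M) * T₁ * (N - M)) * c₁).trace) := by
    set D := ν⁻¹ • Del (ν • X) (r * (ν • X) * r) with hD
    have sD : Dᵀ = D := by rw [hD, transpose_smul, Del_symm hXm hXm']
    have sB : (bd W₀ W₁)ᵀ = bd W₀ W₁ := by
      rw [bd, fromBlocks_transpose, sW₀, sW₁, transpose_zero]
    have q1 : (D * D).trace ≤ 12 * (Q * (r * Q * r)).trace := by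
      have q := trace_Del_sq_le hXm hXm'
      have e1 : (phi (ν • X) * phi (r * (ν • X) * r)).trace
          = ν * ν * (Q * (r * Q * r)).trace := by
        rw [phi_refl hXm hr hr2, phi_ps hν, ← hQd]
        simp only [Matrix.mul_smul, Matrix.smul_mul, trace_smul, smul_eq_mul]
        ring
      have e2 : (D * D).trace = ν⁻¹ * ν⁻¹ * (Del (ν • X) (r * (ν • X) * r)
          * Del (ν • X) (r * (ν • X) * r)).trace := by
        rw [hD]
        simp only [Matrix.mul_smul, Matrix.smul_mul, trace_smul, smul_eq_mul]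
        ring
      rw [e1] at q
      rw [e2]
      have := mul_le_mul_of_nonneg_left q (by positivity : 0 ≤ ν⁻¹ * ν⁻¹)
      refine this.trans (le_of_eq ?_)
      field_simp
    have q2 : (bd W₀ W₁ * bd W₀ W₁).trace = hs W₀ + hs W₁ := by
      rw [tr_bd', hs_eq_trace, hs_eq_trace, sW₀, sW₁]
    have q3 := tr_sub_sq_le sB sD
    rw [q2] at q3
    rw [eE]
    linarith
  -- assembly
  rw [l1] at h
  have G0 : (P * (r * Q * r)).trace = (P * (r * Q * r)).trace := rfl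
  have m1 : (1 / 2) * μ⁻¹ * (Del (μ • V) (r * (μ • V) * r) * Y).trace
      ≤ (1 / 2) * μ⁻¹ * (2 * (8 * ν⁻¹ * (a * a').trace + (1 / 8) * (a' * Q).trace)
        + (ν⁻¹ / 2 * (4 * (a * a').trace) + 1 / (2 * ν⁻¹) *
          (24 * (Q * (r * Q * r)).trace
            + (1 / 2) * ν⁻¹ * ((c₀ᵀ * ((N + M) * T₀ * (N + M)) * c₀).trace
            + (c₁ᵀ * ((N - M) * T₁ * (N - M)) * c₁).trace)))) := by
    refine mul_le_mul_of_nonneg_left ?_ (by positivity)
    have k1 := mul_le_mul_of_nonneg_left l6 (by positivity : 0 ≤ ν⁻¹ / 2)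
    have k2 := mul_le_mul_of_nonneg_left l7 (by positivity : 0 ≤ 1 / (2 * ν⁻¹))
    linarith
  rw [dA, dG] at m1
  have m2 : (1 / 2) * μ⁻¹ * (2 * (8 * ν⁻¹ * (μ * μ * (P * (r * P * r)).trace)
        + (1 / 8) * (μ * (P * (r * Q * r)).trace))
        + (ν⁻¹ / 2 * (4 * (μ * μ * (P * (r * P * r)).trace)) + 1 / (2 * ν⁻¹) *
          (24 * (Q * (r * Q * r)).trace
            + (1 / 2) * ν⁻¹ * ((c₀ᵀ * ((N + M) * T₀ * (N + M)) * c₀).trace
            + (c₁ᵀ * ((N - M) * T₁ * (N - M)) * c₁).trace))))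
      = 9 * (μ / ν) * (P * (r * P * r)).trace + (1 / 8) * (P * (r * Q * r)).trace
        + 6 * (ν / μ) * (Q * (r * Q * r)).trace
        + (1 / 8) * μ⁻¹ * ((c₀ᵀ * ((N + M) * T₀ * (N + M)) * c₀).trace
            + (c₁ᵀ * ((N - M) * T₁ * (N - M)) * c₁).trace) := by
    field_simp
    ring
  rw [m2] at m1
  linarith

end main

end

end Vale.Agent.P141.H103.SatMid
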